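import Vale.Agent.P054.MathlibUsed
attribute [-instance] ProperSMul.toContinuousSMul IsTopologicalTorsor.toContinuousSMul IdemSemiring.toCanonicallyOrderedAdd IdemSemiring.toMulLeftMono IdemSemiring.toMulRightMono AddQuantale.instAddLeftMono AddQuantale.instAddRightMono Quantale.instMulLeftMono Quantale.instMulRightMono FiniteDimensional.rclike_to_real IsScalarTower.complexToReal FiniteDimensional.complexToReal

set_option linter.all false
set_option autoImplicit false

/-! P054, Theorem G, local lemma, part A: reflections, heavy triangles, two flats are exchanged by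
at most two hyperplane reflections. -/

namespace Vale.Agent.P054G

variable {E : Type*} [NormedAddCommGroup E] [InnerProductSpace ℝ E]

/-- linear reflection with normal vector `ν` -/
noncomputable def rl (ν : E) : E →ₗ[ℝ] E :=
  LinearMap.id - (2 / ‖ν‖ ^ 2) • ((innerₛₗ ℝ ν).smulRight ν)

theorem rl_apply (ν v : E) : rl ν v = v - (2 * inner ℝ ν v / ‖ν‖ ^ 2) • ν := by
  unfold rl
  rw [LinearMap.sub_apply, LinearMap.id_apply, LinearMap.smul_apply, LinearMap.smulRight_apply,
    innerₛₗ_apply_apply, smul_smul]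
  congr 2
  ring

theorem rl_orth {ν v : E} (h : inner ℝ ν v = 0) : rl ν v = v := by
  rw [rl_apply, h, mul_zero, zero_div, zero_smul, sub_zero]

theorem rl_inner (ν v w : E) : inner ℝ (rl ν v) (rl ν w) = inner ℝ v w := by
  rcases eq_or_ne ν 0 with h0 | h0
  · subst h0
    simp [rl_apply]
  · have hn : ‖ν‖ ^ 2 ≠ 0 := by positivity
    rw [rl_apply, rl_apply, inner_sub_left, inner_sub_right, inner_sub_right, real_inner_smul_left,
      real_inner_smul_left, real_inner_smul_right, real_inner_smul_right,
      real_inner_self_eq_norm_sq, real_inner_comm ν v]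
    field_simp
    ring

theorem rl_norm (ν v : E) : ‖rl ν v‖ = ‖v‖ := by
  have h := rl_inner ν v v
  rw [real_inner_self_eq_norm_sq, real_inner_self_eq_norm_sq] at h
  exact (sq_eq_sq₀ (norm_nonneg _) (norm_nonneg _)).mp h

theorem rl_self (ν v : E) (h : inner ℝ ν v = 0) (w : E) :
    inner ℝ v (rl ν w) = inner ℝ v w := by
  rw [rl_apply, inner_sub_right, real_inner_smul_right, real_inner_comm ν v, h, mul_zero, sub_zero]

theorem rl_sub (ν v : E) : v - rl ν v = (2 * inner ℝ ν v / ‖ν‖ ^ 2) • ν := by
  rw [rl_apply, sub_sub_cancel]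

/-- reflection in the hyperplane through `p` with normal vector `ν` -/
noncomputable def rfp (p ν z : E) : E := p + rl ν (z - p)

theorem rfp_sub (p ν z z' : E) : rfp p ν z - rfp p ν z' = rl ν (z - z') := by
  unfold rfp
  rw [add_sub_add_left_eq_sub, ← map_sub, sub_sub_sub_cancel_right]

theorem rfp_fix {p ν z : E} (h : inner ℝ ν (z - p) = 0) : rfp p ν z = z := by
  unfold rfp
  rw [rl_orth h, add_sub_cancel]

theorem dist_rfp (p ν z : E) : dist p (rfp p ν z) = dist p z := by
  unfold rfp
  rw [dist_eq_norm, dist_eq_norm, sub_add_cancel_left, norm_neg, rl_norm, norm_sub_rev]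

/-- two different flats of the same dimension are exchanged by at most two hyperplane
reflections -/
theorem swap_two [FiniteDimensional ℝ E] {V1 V2 : Submodule ℝ E}
    (hdim : Module.finrank ℝ V1 = Module.finrank ℝ V2) (f1 g2 : E) (hf : f1 - g2 ∉ V2) :
    ∃ y1 y2 : E, ∀ p ν : E, V1.map (rl ν) = V2 → rfp p ν f1 - g2 ∈ V2 →
      rfp p ν f1 = y1 ∨ rfp p ν f1 = y2 := by
  by_cases hex : ∃ p ν : E, V1.map (rl ν) = V2 ∧ rfp p ν f1 - g2 ∈ V2
  swap
  · refine ⟨0, 0, ?_⟩
    intro p ν h1 h2
    exact absurd ⟨p, ν, h1, h2⟩ hex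
  by_cases hV : V1 = V2
  · -- parallel flats
    have key : ∀ p ν : E, V1.map (rl ν) = V2 → rfp p ν f1 - g2 ∈ V2 →
        rfp p ν f1 - f1 ∈ V2ᗮ := by
      intro p ν h1 h2
      have hfix : f1 - rfp p ν f1 = (2 * inner ℝ ν (f1 - p) / ‖ν‖ ^ 2) • ν := by
        have : f1 - rfp p ν f1 = (f1 - p) - rl ν (f1 - p) := by unfold rfp; abel
        rw [this, rl_sub]
      have hνV : ν ∈ V2ᗮ := by
        rw [Submodule.mem_orthogonal']
        intro v hv
        by_contra hne
        have h3 : rl ν v ∈ V2 := by
          rw [← h1]; exact Submodule.mem_map_of_mem (by rw [hV]; exact hv)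
        have h4 : (2 * inner ℝ ν v / ‖ν‖ ^ 2) • ν ∈ V2 := by
          rw [← rl_sub]; exact V2.sub_mem hv h3
        have hν0 : ν ≠ 0 := by
          intro h0
          rw [h0, inner_zero_left] at hne
          exact hne rfl
        have h5 : (2 * inner ℝ ν v / ‖ν‖ ^ 2) ≠ 0 := by
          have : ‖ν‖ ^ 2 ≠ 0 := by positivity
          exact div_ne_zero (mul_ne_zero two_ne_zero hne) this
        have h6 : ν ∈ V2 := (Submodule.smul_mem_iff _ h5).mp h4
        apply hf
        have h7 : f1 - g2 = (f1 - rfp p ν f1) + (rfp p ν f1 - g2) := by abel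
        rw [h7, hfix]
        exact V2.add_mem (V2.smul_mem _ h6) h2
      rw [← neg_sub, hfix]
      exact V2ᗮ.neg_mem (V2ᗮ.smul_mem _ hνV)
    obtain ⟨p0, ν0, h01, h02⟩ := hex
    refine ⟨rfp p0 ν0 f1, 0, ?_⟩
    intro p ν h1 h2
    left
    have e1 := key p ν h1 h2
    have e0 := key p0 ν0 h01 h02
    have e2 : rfp p ν f1 - rfp p0 ν0 f1 ∈ V2 := by
      have : rfp p ν f1 - rfp p0 ν0 f1 = (rfp p ν f1 - g2) - (rfp p0 ν0 f1 - g2) := by abel
      rw [this]; exact V2.sub_mem h2 h02
    have e3 : rfp p ν f1 - rfp p0 ν0 f1 ∈ V2ᗮ := by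
      have : rfp p ν f1 - rfp p0 ν0 f1 = (rfp p ν f1 - f1) - (rfp p0 ν0 f1 - f1) := by abel
      rw [this]; exact V2ᗮ.sub_mem e1 e0
    have e4 := (Submodule.mem_orthogonal _ _).mp e3 _ e2
    exact sub_eq_zero.mp (inner_self_eq_zero.mp e4)
  · -- intersecting flats
    obtain ⟨W, hW⟩ : ∃ W : Submodule ℝ E, W = V1 ⊓ V2 := ⟨_, rfl⟩
    have hWfin : Module.finrank ℝ W + 1 ≤ Module.finrank ℝ V1 := by
      rw [hW]
      have h1 : V1 ⊓ V2 < V1 := by
        refine lt_of_le_of_ne inf_le_left ?_
        intro h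
        apply hV
        exact Submodule.eq_of_le_of_finrank_eq (inf_eq_left.mp h) hdim
      exact Submodule.finrank_lt_finrank_of_lt h1
    -- structure of a reflection that exchanges the directions
    have key : ∀ ν : E, V1.map (rl ν) = V2 →
        (∀ w ∈ W, inner ℝ ν w = 0) ∧ ∃ v ∈ V1, inner ℝ ν v ≠ 0 := by
      intro ν h1
      have hker : V1 ⊓ LinearMap.ker (innerₛₗ ℝ ν) ≤ W := by
        rw [hW]
        refine le_inf inf_le_left ?_
        rintro v ⟨hv1, hv2⟩
        have h2 : inner ℝ ν v = 0 := by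
          have := LinearMap.mem_ker.mp hv2
          rwa [innerₛₗ_apply_apply] at this
        rw [← h1, ← rl_orth h2]
        exact Submodule.mem_map_of_mem hv1
      have hex2 : ∃ v ∈ V1, inner ℝ ν v ≠ 0 := by
        by_contra hcon
        push Not at hcon
        apply hV
        apply Submodule.eq_of_le_of_finrank_eq _ hdim
        intro v hv
        have h3 := hker ⟨hv, by
          rw [SetLike.mem_coe, LinearMap.mem_ker, innerₛₗ_apply_apply]; exact hcon v hv⟩
        rw [hW] at h3
        exact h3.2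
      refine ⟨?_, hex2⟩
      -- dimension count
      have hdimker : Module.finrank ℝ V1 ≤
          Module.finrank ℝ (V1 ⊓ LinearMap.ker (innerₛₗ ℝ ν) : Submodule ℝ E) + 1 := by
        have h2 := LinearMap.finrank_range_add_finrank_ker ((innerₛₗ ℝ ν).domRestrict V1)
        have h3 : Module.finrank ℝ (LinearMap.range ((innerₛₗ ℝ ν).domRestrict V1)) ≤ 1 := by
          refine (Submodule.finrank_le _).trans ?_
          rw [Module.finrank_self]
        have h4 : Module.finrank ℝ (LinearMap.ker ((innerₛₗ ℝ ν).domRestrict V1)) =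
            Module.finrank ℝ (V1 ⊓ LinearMap.ker (innerₛₗ ℝ ν) : Submodule ℝ E) := by
          have h5 : V1 ⊓ LinearMap.ker (innerₛₗ ℝ ν) =
              (LinearMap.ker ((innerₛₗ ℝ ν).domRestrict V1)).map V1.subtype := by
            ext v
            simp only [Submodule.mem_inf, LinearMap.mem_ker, Submodule.mem_map,
              LinearMap.domRestrict_apply, Submodule.subtype_apply, Subtype.exists,
              exists_and_right, exists_eq_right]
            constructor
            · rintro ⟨a, b⟩; exact ⟨a, b⟩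
            · rintro ⟨a, b⟩; exact ⟨a, b⟩
          rw [h5]
          exact (LinearEquiv.finrank_eq (Submodule.equivMapOfInjective V1.subtype
            V1.injective_subtype _))
        omega
      have heq : V1 ⊓ LinearMap.ker (innerₛₗ ℝ ν) = W := by
        apply Submodule.eq_of_le_of_finrank_le hker
        omega
      intro w hw
      rw [← heq] at hw
      have := LinearMap.mem_ker.mp hw.2
      rwa [innerₛₗ_apply_apply] at this
    -- a common point on the mirror
    have hcom : ∀ p ν : E, V1.map (rl ν) = V2 → rfp p ν f1 - g2 ∈ V2 →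
        ∃ z0, z0 - f1 ∈ V1 ∧ z0 - g2 ∈ V2 ∧ inner ℝ ν (z0 - p) = 0 := by
      intro p ν h1 h2
      obtain ⟨_, v, hv, hne⟩ := key ν h1
      obtain ⟨a, ha⟩ : ∃ a : ℝ, a = -(inner ℝ ν (f1 - p)) / inner ℝ ν v := ⟨_, rfl⟩
      have hz : inner ℝ ν (f1 + a • v - p) = 0 := by
        rw [show f1 + a • v - p = (f1 - p) + a • v by abel, inner_add_right,
          real_inner_smul_right, ha]
        field_simp
        ring
      refine ⟨f1 + a • v, ?_, ?_, hz⟩
      · rw [add_sub_cancel_left]; exact V1.smul_mem _ hv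
      · have h3 := rfp_fix hz
        have h4 : f1 + a • v - g2 = (rfp p ν (f1 + a • v) - rfp p ν f1) + (rfp p ν f1 - g2) := by
          rw [h3]; abel
        rw [h4, rfp_sub, add_sub_cancel_left]
        apply V2.add_mem _ h2
        rw [← h1]
        exact Submodule.mem_map_of_mem (V1.smul_mem _ hv)
    obtain ⟨p0, ν0, h01, h02⟩ := hex
    obtain ⟨z0, hz01, hz02, hz03⟩ := hcom p0 ν0 h01 h02
    -- the nearest common point
    obtain ⟨zs, hzs1, hzs2, hzs3⟩ : ∃ zs : E, zs - f1 ∈ V1 ∧ zs - g2 ∈ V2 ∧ f1 - zs ∈ Wᗮ := by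
      refine ⟨z0 + W.starProjection (f1 - z0), ?_, ?_, ?_⟩
      · rw [show z0 + W.starProjection (f1 - z0) - f1 = (z0 - f1) + W.starProjection (f1 - z0) by
          abel]
        apply V1.add_mem hz01
        have := W.starProjection_apply_mem (f1 - z0)
        rw [hW] at this ⊢
        exact this.1
      · rw [show z0 + W.starProjection (f1 - z0) - g2 = (z0 - g2) + W.starProjection (f1 - z0) by
          abel]
        apply V2.add_mem hz02
        have := W.starProjection_apply_mem (f1 - z0)
        rw [hW] at this ⊢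
        exact this.2
      · rw [show f1 - (z0 + W.starProjection (f1 - z0)) = (f1 - z0) - W.starProjection (f1 - z0) by
          abel]
        exact Submodule.sub_starProjection_mem_orthogonal _
    have hlast : ∀ p ν : E, V1.map (rl ν) = V2 → rfp p ν f1 - g2 ∈ V2 →
        rfp p ν f1 - zs ∈ Wᗮ ⊓ V2 ∧ ‖rfp p ν f1 - zs‖ = ‖f1 - zs‖ := by
      intro p ν h1 h2
      obtain ⟨hν1, _⟩ := key ν h1
      obtain ⟨z1, hz11, hz12, hz13⟩ := hcom p ν h1 h2
      have hzz : zs - z1 ∈ W := by
        rw [hW]
        constructor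
        · rw [SetLike.mem_coe, show zs - z1 = (zs - f1) - (z1 - f1) by abel]
          exact V1.sub_mem hzs1 hz11
        · rw [SetLike.mem_coe, show zs - z1 = (zs - g2) - (z1 - g2) by abel]
          exact V2.sub_mem hzs2 hz12
      have hzs : inner ℝ ν (zs - p) = 0 := by
        rw [show zs - p = (zs - z1) + (z1 - p) by abel, inner_add_right, hν1 _ hzz, hz13, add_zero]
      have h3 : rfp p ν f1 - zs = rl ν (f1 - zs) := by
        rw [← rfp_sub p, rfp_fix hzs]
      rw [h3]
      refine ⟨⟨?_, ?_⟩, rl_norm _ _⟩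
      · rw [SetLike.mem_coe, Submodule.mem_orthogonal]
        intro w hw
        rw [rl_self ν w (hν1 w hw)]
        exact (Submodule.mem_orthogonal _ _).mp hzs3 w hw
      · rw [SetLike.mem_coe, ← h1]
        apply Submodule.mem_map_of_mem
        rw [← neg_sub]
        exact V1.neg_mem hzs1
    have hWV2 : W ≤ V2 := by rw [hW]; exact inf_le_right
    have hone : Module.finrank ℝ (Wᗮ ⊓ V2 : Submodule ℝ E) = 1 := by
      have h1 := Submodule.finrank_add_inf_finrank_orthogonal hWV2
      -- `finrank W + 1 = finrank V1`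
      obtain ⟨hν1, v, hv, hne⟩ := key ν0 h01
      have h2 : Module.finrank ℝ V1 ≤ Module.finrank ℝ W + 1 := by
        have h3 : V1 ≤ W ⊔ Submodule.span ℝ {v} := by
          intro y hy
          have h4 : y - (inner ℝ ν0 y / inner ℝ ν0 v) • v ∈ W := by
            rw [hW]
            have h5 : inner ℝ ν0 (y - (inner ℝ ν0 y / inner ℝ ν0 v) • v) = 0 := by
              rw [inner_sub_right, real_inner_smul_right]
              field_simp
              ring
            have h6 : y - (inner ℝ ν0 y / inner ℝ ν0 v) • v ∈ V1 :=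
              V1.sub_mem hy (V1.smul_mem _ hv)
            refine ⟨h6, ?_⟩
            rw [SetLike.mem_coe, ← h01, ← rl_orth h5]
            exact Submodule.mem_map_of_mem h6
          rw [show y = (y - (inner ℝ ν0 y / inner ℝ ν0 v) • v) +
            (inner ℝ ν0 y / inner ℝ ν0 v) • v by abel]
          exact Submodule.add_mem_sup h4
            (Submodule.smul_mem _ _ (Submodule.mem_span_singleton_self v))
        have h7 := Submodule.finrank_mono h3
        have h8 := Submodule.finrank_add_le_finrank_add_finrank W (Submodule.span ℝ {v})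
        have h9 : Module.finrank ℝ (Submodule.span ℝ {v}) ≤ 1 := by
          have := finrank_span_le_card (R := ℝ) ({v} : Set E)
          simpa using this
        omega
      omega
    obtain ⟨hm0, hn0⟩ := hlast p0 ν0 h01 h02
    refine ⟨rfp p0 ν0 f1, zs - (rfp p0 ν0 f1 - zs), ?_⟩
    intro p ν h1 h2
    obtain ⟨hm, hn⟩ := hlast p ν h1 h2
    obtain ⟨⟨e, he⟩, he0, hspan⟩ := finrank_eq_one_iff'.mp hone
    obtain ⟨a, ha⟩ := hspan ⟨_, hm⟩
    obtain ⟨b, hb⟩ := hspan ⟨_, hm0⟩
    have ha' : a • e = rfp p ν f1 - zs := congrArg Subtype.val ha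
    have hb' : b • e = rfp p0 ν0 f1 - zs := congrArg Subtype.val hb
    have he' : e ≠ 0 := by
      intro h
      apply he0
      exact Subtype.ext h
    have hab : |a| = |b| := by
      have h3 : ‖a • e‖ = ‖b • e‖ := by rw [ha', hb', hn, hn0]
      rw [norm_smul, norm_smul, Real.norm_eq_abs, Real.norm_eq_abs] at h3
      exact mul_right_cancel₀ (norm_ne_zero_iff.mpr he') h3
    rcases abs_eq_abs.mp hab with h | h
    · left
      rw [h, hb'] at ha'
      exact (sub_left_injective ha').symm
    · right
      rw [h, neg_smul, hb'] at ha'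
      rw [sub_eq_add_neg, ha']
      abel

end Vale.Agent.P054G
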