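import Vale.Agent.P054.MathlibUsed
import Vale.Agent.P054.Bdl.B2
import Vale.Agent.P054.H25.Defs
attribute [-instance] ProperSMul.toContinuousSMul IsTopologicalTorsor.toContinuousSMul IdemSemiring.toCanonicallyOrderedAdd IdemSemiring.toMulLeftMono IdemSemiring.toMulRightMono AddQuantale.instAddLeftMono AddQuantale.instAddRightMono Quantale.instMulLeftMono Quantale.instMulRightMono FiniteDimensional.rclike_to_real IsScalarTower.complexToReal FiniteDimensional.complexToReal

set_option linter.all false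

section

set_option autoImplicit false

open Finset

namespace Vale.Agent.P054F

open Vale.Agent.P054K

theorem KF.mono {d k m m' : ℕ} {P P' : Finset (EuclideanSpace ℝ (Fin d))} (h : KF k m P)
    (hP : P' ⊆ P) (hm : m ≤ m') : KF k m' P' := by
  classical
  intro E hE
  refine le_trans (card_le_card ?_) ((h E hE).trans hm)
  intro p hp
  rw [mem_filter] at hp ⊢
  exact ⟨hP hp.1, hp.2⟩

/-- `KF` passes to a set that an injective affine map carries into `P` -/
theorem KF.pullback {d j k m : ℕ} {P : Finset (EuclideanSpace ℝ (Fin d))} (h : KF k m P)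
    (Φ : EuclideanSpace ℝ (Fin j) →ᵃ[ℝ] EuclideanSpace ℝ (Fin d)) (hΦ : Function.Injective Φ)
    (Q : Finset (EuclideanSpace ℝ (Fin j))) (hQ : ∀ q ∈ Q, Φ q ∈ P) : KF k m Q := by
  classical
  intro E hE
  have hlin : Function.Injective Φ.linear := (Φ.linear_injective_iff).mpr hΦ
  have h1 : Module.finrank ℝ (E.map Φ).direction = k := by
    rw [AffineSubspace.map_direction, ← hE]
    exact (LinearEquiv.finrank_eq (Submodule.equivMapOfInjective Φ.linear hlin E.direction)).symm
  refine le_trans ?_ (h (E.map Φ) h1)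
  refine Finset.card_le_card_of_injOn Φ ?_ (hΦ.injOn)
  intro q hq
  rw [mem_coe, mem_filter] at hq
  rw [mem_coe, mem_filter]
  exact ⟨hQ q hq.1, AffineSubspace.mem_map_of_mem Φ hq.2⟩

/-- the first projection is injective on a subspace that lies in a dual hyperplane -/
theorem finrank_map_fst {d : ℕ} (p₀ : EuclideanSpace ℝ (Fin d))
    (A : Submodule ℝ (EuclideanSpace ℝ (Fin d) × ℝ)) (hA : A ≤ hyp p₀) :
    Module.finrank ℝ (A.map (LinearMap.fst ℝ (EuclideanSpace ℝ (Fin d)) ℝ)) =
      Module.finrank ℝ A := by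
  have hinj : Function.Injective
      ((LinearMap.fst ℝ (EuclideanSpace ℝ (Fin d)) ℝ).domRestrict A) := by
    rw [injective_iff_map_eq_zero]
    rintro ⟨⟨u, c⟩, hx⟩ h0
    have hu : u = 0 := h0
    subst hu
    have h1 := hA hx
    rw [mem_hyp] at h1
    simp only [inner_zero_right, mul_zero] at h1
    subst h1
    rfl
  have h2 := LinearMap.finrank_range_of_inj hinj
  have h3 : LinearMap.range ((LinearMap.fst ℝ (EuclideanSpace ℝ (Fin d)) ℝ).domRestrict A) =
      A.map (LinearMap.fst ℝ (EuclideanSpace ℝ (Fin d)) ℝ) := by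
    rw [LinearMap.range_domRestrict]
  rw [h3] at h2
  exact h2

/-- if `A` lies in both dual hyperplanes then the difference is orthogonal to the projection -/
theorem sub_mem_orth {d : ℕ} (p p₀ : EuclideanSpace ℝ (Fin d))
    (A : Submodule ℝ (EuclideanSpace ℝ (Fin d) × ℝ)) (hA : A ≤ hyp p) (hA₀ : A ≤ hyp p₀) :
    p - p₀ ∈ (A.map (LinearMap.fst ℝ (EuclideanSpace ℝ (Fin d)) ℝ))ᗮ := by
  rw [Submodule.mem_orthogonal]
  intro u hu
  rw [Submodule.mem_map] at hu
  obtain ⟨⟨u', c⟩, hx, hxu⟩ := hu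
  have hxu' : u' = u := hxu
  subst hxu'
  have h1 := hA hx
  have h2 := hA₀ hx
  rw [mem_hyp] at h1 h2
  rw [inner_sub_right, real_inner_comm, real_inner_comm p₀]
  linarith only [h1, h2]

/-- the points whose dual hyperplane contains a fixed subspace of dimension `d - k` lie in one
affine `k`-flat, so there are at most `m` of them -/
theorem flat_card_le {d k m : ℕ} (P S : Finset (EuclideanSpace ℝ (Fin d))) (hS : S ⊆ P)
    (hK : KF k m P) (A : Submodule ℝ (EuclideanSpace ℝ (Fin d) × ℝ)) (hA : ∀ p ∈ S, A ≤ hyp p)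
    (hj : Module.finrank ℝ A + k = d) : S.card ≤ m := by
  classical
  rcases S.eq_empty_or_nonempty with hSe | ⟨p₀, hp₀⟩
  · subst hSe
    simp only [card_empty, zero_le]
  have hfU := finrank_map_fst p₀ A (hA p₀ hp₀)
  set U : Submodule ℝ (EuclideanSpace ℝ (Fin d)) :=
    A.map (LinearMap.fst ℝ (EuclideanSpace ℝ (Fin d)) ℝ) with hU
  have hfO : Module.finrank ℝ Uᗮ = k := by
    have h1 := Submodule.finrank_add_finrank_orthogonal U
    rw [finrank_euclideanSpace_fin, hfU] at h1
    omega
  have h2 := hK (AffineSubspace.mk' p₀ Uᗮ) (by rw [AffineSubspace.direction_mk']; exact hfO)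
  refine le_trans (card_le_card ?_) h2
  intro p hp
  rw [mem_filter, AffineSubspace.mem_mk', vsub_eq_sub]
  exact ⟨hS hp, sub_mem_orth p p₀ A (hA p hp) (hA p₀ hp₀)⟩

/-- filter form of `flat_card_le` -/
theorem flat_filter_card_le {d k m : ℕ} (P : Finset (EuclideanSpace ℝ (Fin d)))
    (hK : KF k m P) (A : Submodule ℝ (EuclideanSpace ℝ (Fin d) × ℝ)) 
    [DecidablePred fun p : EuclideanSpace ℝ (Fin d) => A ≤ hyp p]
    (hj : Module.finrank ℝ A + k = d) : (P.filter (fun p => A ≤ hyp p)).card ≤ m :=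
  flat_card_le P _ (filter_subset _ _) hK A (fun p hp => (mem_filter.mp hp).2) hj

/-- `flat_bound` with the extra hypothesis that every affine `k`-flat has at most `m` points -/
theorem flat_bound_KF {d t j k m : ℕ} {g : ℝ} (P S : Finset (EuclideanSpace ℝ (Fin d)))
    (hS : S ⊆ P)
    (ht : ∀ p ∈ P, (P.image (dist p)).card ≤ t + 1) (hK : KF k m P)
    (A : Submodule ℝ (EuclideanSpace ℝ (Fin d) × ℝ)) (hA : ∀ p ∈ S, A ≤ hyp p)
    (hj : Module.finrank ℝ A + j = d) (hg : PF j k t m g) : (S.card : ℝ) ≤ g := by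
  classical
  rcases S.eq_empty_or_nonempty with hSe | ⟨p₀, hp₀⟩
  · subst hSe
    have := hg ∅ (by simp) (by intro E hE; simp)
    simpa only [card_empty, CharP.cast_eq_zero, ge_iff_le] using this
  have hfU := finrank_map_fst p₀ A (hA p₀ hp₀)
  set U : Submodule ℝ (EuclideanSpace ℝ (Fin d)) :=
    A.map (LinearMap.fst ℝ (EuclideanSpace ℝ (Fin d)) ℝ) with hU
  have horth : ∀ p ∈ S, p - p₀ ∈ Uᗮ := fun p hp => sub_mem_orth p p₀ A (hA p hp) (hA p₀ hp₀)
  have hfO : Module.finrank ℝ Uᗮ = j := by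
    have h1 := Submodule.finrank_add_finrank_orthogonal U
    rw [finrank_euclideanSpace_fin, hfU] at h1
    omega
  set b : OrthonormalBasis (Fin j) ℝ Uᗮ := (stdOrthonormalBasis ℝ Uᗮ).reindex (finCongr hfO) with hb
  set f : EuclideanSpace ℝ (Fin d) → EuclideanSpace ℝ (Fin j) := fun p =>
    if h : p - p₀ ∈ Uᗮ then b.repr ⟨p - p₀, h⟩ else 0 with hf
  -- the affine isometry that inverts `f`
  set Ψ : EuclideanSpace ℝ (Fin j) →ₗ[ℝ] EuclideanSpace ℝ (Fin d) :=
    (Uᗮ).subtype.comp (b.repr.symm.toLinearEquiv.toLinearMap) with hΨ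
  set Φ : EuclideanSpace ℝ (Fin j) →ᵃ[ℝ] EuclideanSpace ℝ (Fin d) :=
    Ψ.toAffineMap + AffineMap.const ℝ _ p₀ with hΦ
  have hΦa : ∀ y, Φ y = (b.repr.symm y : EuclideanSpace ℝ (Fin d)) + p₀ := by
    intro y
    rfl
  have hΦinj : Function.Injective Φ := by
    intro y y' hyy
    rw [hΦa, hΦa] at hyy
    have h1 := add_right_cancel hyy
    have h2 := Subtype.ext h1
    exact b.repr.symm.injective h2
  have hΦf : ∀ p ∈ S, Φ (f p) = p := by
    intro p hp
    rw [hΦa, hf]
    simp only
    rw [dif_pos (horth p hp), LinearIsometryEquiv.symm_apply_apply]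
    exact sub_add_cancel p p₀
  have hdist : ∀ p ∈ S, ∀ q ∈ S, dist (f p) (f q) = dist p q := by
    intro p hp q hq
    simp only [hf]
    rw [dif_pos (horth p hp), dif_pos (horth q hq), LinearIsometryEquiv.dist_map]
    rw [Subtype.dist_eq, dist_sub_right]
  have hinj : Set.InjOn f (S : Set (EuclideanSpace ℝ (Fin d))) := by
    intro p hp q hq hpq
    have h1 := hdist p hp q hq
    rw [hpq, dist_self] at h1
    exact dist_eq_zero.mp h1.symm
  have h1 := hg (S.image f) (by
    intro p' hp'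
    rw [mem_image] at hp'
    obtain ⟨p, hp, rfl⟩ := hp'
    refine le_trans ?_ (ht p (hS hp))
    apply card_le_card
    intro ρ hρ
    rw [mem_image] at hρ
    obtain ⟨q', hq', rfl⟩ := hρ
    rw [mem_image] at hq'
    obtain ⟨q, hq, rfl⟩ := hq'
    rw [hdist p hp q hq]
    exact mem_image_of_mem _ (hS hq)) (by
    refine hK.pullback Φ hΦinj _ ?_
    intro q hq
    rw [mem_image] at hq
    obtain ⟨p, hp, rfl⟩ := hq
    rw [hΦf p hp]
    exact hS hp)
  rwa [Finset.card_image_of_injOn hinj] at h1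

open scoped Classical in
/-- at most `m` points have a dual hyperplane through a fixed subspace of dimension `d - k` -/
theorem kf_fibre {d k m : ℕ} (P : Finset (EuclideanSpace ℝ (Fin d))) (hK : KF k m P)
    (A : Submodule ℝ (EuclideanSpace ℝ (Fin d) × ℝ)) (hj : Module.finrank ℝ A + k = d) :
    ((P.filter (fun p => A ≤ hyp p)).card : ℝ) ≤ m := by
  exact_mod_cast flat_card_le P _ (filter_subset _ _) hK A (fun p hp => (mem_filter.mp hp).2) hj

open scoped Classical in
/-- points whose dual hyperplane contains a fixed subspace of dimension `d - j` -/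
theorem flat_bound2 {d t j k m : ℕ} {g : ℝ} (P : Finset (EuclideanSpace ℝ (Fin d)))
    (ht : ∀ p ∈ P, (P.image (dist p)).card ≤ t + 1) (hK : KF k m P)
    (A : Submodule ℝ (EuclideanSpace ℝ (Fin d) × ℝ)) (hj : Module.finrank ℝ A + j = d)
    (hg : PF j k t m g) : ((P.filter (fun p => A ≤ hyp p)).card : ℝ) ≤ g :=
  flat_bound_KF P _ (filter_subset _ _) ht hK A (fun p hp => (mem_filter.mp hp).2) hj hg

/-- for `k = d` the condition bounds the whole set -/
theorem KF.card_le {d m : ℕ} {P : Finset (EuclideanSpace ℝ (Fin d))} (h : KF d m P) :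
    P.card ≤ m := by
  classical
  have h1 := h ⊤ (by
    rw [AffineSubspace.direction_top, finrank_top, finrank_euclideanSpace_fin])
  refine le_trans (card_le_card ?_) h1
  intro p hp
  rw [mem_filter]
  exact ⟨hp, AffineSubspace.mem_top ℝ _ p⟩

end Vale.Agent.P054F
end
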