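import Vale.Agent.P054.MathlibUsed
import Vale.Agent.P054.Bdl.B5
import Vale.Agent.P054.H449.RM.Defs
attribute [-instance] ProperSMul.toContinuousSMul IsTopologicalTorsor.toContinuousSMul IdemSemiring.toCanonicallyOrderedAdd IdemSemiring.toMulLeftMono IdemSemiring.toMulRightMono AddQuantale.instAddLeftMono AddQuantale.instAddRightMono Quantale.instMulLeftMono Quantale.instMulRightMono FiniteDimensional.rclike_to_real IsScalarTower.complexToReal FiniteDimensional.complexToReal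

set_option linter.all false
set_option autoImplicit false

open Finset Vale.Agent.P054K

namespace Vale.Agent.P054M

/-- extracting the root -/
theorem root_bound {n T A X ε : ℝ} {k : ℕ} (hk : 1 ≤ k) (hn : 1 ≤ n) (hA : 1 ≤ A) (hε : 0 ≤ ε)
    (hX : 0 ≤ X) (hT : 0 ≤ T) (h : X ≤ A * n ^ ε * T ^ k) :
    A⁻¹ * (n ^ (-ε) * X ^ (1 / (k:ℝ))) ≤ T := by
  have hn0 : 0 < n := by linarith
  have hnε : 1 ≤ n ^ ε := Real.one_le_rpow hn hε
  obtain ⟨B, hB⟩ : ∃ B : ℝ, B = A * n ^ ε := ⟨_, rfl⟩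
  have hB1 : 1 ≤ B := by rw [hB]; nlinarith
  have hB0 : 0 < B := by linarith
  have hkr : (0:ℝ) < k := by exact_mod_cast hk
  have h1 : X ≤ (B * T) ^ k := by
    rw [mul_pow]
    refine h.trans ?_
    rw [← hB]
    apply mul_le_mul_of_nonneg_right _ (by positivity)
    exact le_self_pow₀ hB1 (by omega)
  have h2 : X ^ (1 / (k:ℝ)) ≤ B * T := by
    calc X ^ (1 / (k:ℝ)) ≤ ((B * T) ^ k) ^ (1 / (k:ℝ)) := Real.rpow_le_rpow hX h1 (by positivity)
      _ = B * T := by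
          rw [← Real.rpow_natCast, ← Real.rpow_mul (by positivity), mul_one_div_cancel hkr.ne',
            Real.rpow_one]
  have h3 : A⁻¹ * (n ^ (-ε) * X ^ (1 / (k:ℝ))) = B⁻¹ * X ^ (1 / (k:ℝ)) := by
    rw [Real.rpow_neg hn0.le, hB, mul_inv]; ring
  rw [h3, inv_mul_le_iff₀ hB0]
  exact h2

/-- the lower bound of the theorem -/
noncomputable def lowRM (d : ℕ) (n M m b : ℝ) : ℝ :=
  min (min (n ^ (2 / (d:ℝ))) (n / M ^ (((d:ℝ) - 1) / d)))
    (min (n / b ^ ((d:ℝ) - 1)) ((n ^ (3 * (d:ℝ) - 2) / m ^ ((d:ℝ) - 1)) ^ (1 / (d:ℝ) ^ 2)))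

theorem lowRM_nonneg (d : ℕ) (n M m b : ℝ) (hn : 0 ≤ n) (hM : 0 ≤ M) (hm : 0 ≤ m) (hb : 0 ≤ b) :
    0 ≤ lowRM d n M m b := by
  unfold lowRM
  refine le_min (le_min (by positivity) (by positivity)) (le_min (by positivity) (by positivity))

/-- from the six alternatives to the lower bound for the number of distances -/
theorem rm_alt {d : ℕ} (hd : 2 ≤ d) {n T M m b A ε Y g : ℝ} (hn : 1 ≤ n) (hT : 1 ≤ T)
    (hM : 1 ≤ M) (hm : 1 ≤ m) (hb : 1 ≤ b) (hA : 1 ≤ A) (hε : 0 ≤ ε)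
    (hY : Y * 2 ^ (d ^ 2) ≤ A * n ^ ε) (hY0 : 0 ≤ Y) (hg0 : 0 ≤ g)
    (hg : (2 * g) ^ 2 ≤ A * n ^ ε * T ^ d)
    (h : n ≤ 2 * g ∨ n ≤ Y * (T + 1) ∨ n ^ 2 ≤ Y * (T + 1) ^ d ∨
      n ^ (3 * d - 2) ≤ Y * ((T + 1) ^ (d ^ 2) * m ^ (d - 1)) ∨
      n ^ d ≤ Y * ((T + 1) ^ d * M ^ (d - 1)) ∨ n ≤ Y * ((T + 1) * b ^ (d - 1))) :
    A⁻¹ * (n ^ (-ε) * lowRM d n M m b) ≤ T := by
  have hn0 : 0 < n := by linarith
  have hT0 : 0 < T := by linarith
  have hM0 : 0 < M := by linarith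
  have hm0 : 0 < m := by linarith
  have hb0 : 0 < b := by linarith
  have hA0 : 0 < A := by linarith
  have hD : (2:ℝ) ≤ d := by exact_mod_cast hd
  have hd0 : (0:ℝ) < d := by linarith
  have hcast : ((d - 1 : ℕ) : ℝ) = (d:ℝ) - 1 := by rw [Nat.cast_sub (by omega)]; simp
  have hcast3 : ((3 * d - 2 : ℕ) : ℝ) = 3 * (d:ℝ) - 2 := by
    rw [Nat.cast_sub (by omega)]; push_cast; ring
  have hT2 : T + 1 ≤ 2 * T := by linarith
  -- powers of `T + 1`
  have hpow : ∀ k : ℕ, k ≤ d ^ 2 → (T + 1) ^ k ≤ 2 ^ (d ^ 2) * T ^ k := by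
    intro k hk
    calc (T + 1) ^ k ≤ (2 * T) ^ k := pow_le_pow_left₀ (by positivity) hT2 k
      _ = 2 ^ k * T ^ k := mul_pow _ _ _
      _ ≤ 2 ^ (d ^ 2) * T ^ k := by
          apply mul_le_mul_of_nonneg_right _ (by positivity)
          exact pow_le_pow_right₀ (by norm_num) hk
  have hfin : ∀ Z : ℝ, lowRM d n M m b ≤ Z → A⁻¹ * (n ^ (-ε) * Z) ≤ T →
      A⁻¹ * (n ^ (-ε) * lowRM d n M m b) ≤ T := by
    intro Z hZ h
    refine le_trans ?_ h
    apply mul_le_mul_of_nonneg_left _ (by positivity)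
    exact mul_le_mul_of_nonneg_left hZ (by positivity)
  have hd2 : 1 ≤ d ^ 2 := Nat.one_le_pow _ _ (by omega)
  have hdd : d ≤ d ^ 2 := by nlinarith
  have Z1 : lowRM d n M m b ≤ n ^ (2 / (d:ℝ)) := (min_le_left _ _).trans (min_le_left _ _)
  have Z2 : lowRM d n M m b ≤ n / M ^ (((d:ℝ) - 1) / d) :=
    (min_le_left _ _).trans (min_le_right _ _)
  have Z3 : lowRM d n M m b ≤ n / b ^ ((d:ℝ) - 1) := (min_le_right _ _).trans (min_le_left _ _)
  have Z4 : lowRM d n M m b ≤ (n ^ (3 * (d:ℝ) - 2) / m ^ ((d:ℝ) - 1)) ^ (1 / (d:ℝ) ^ 2) :=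
    (min_le_right _ _).trans (min_le_right _ _)
  have hsq : ∀ {B : ℝ}, n ^ 2 ≤ B → B ≤ A * n ^ ε * T ^ d →
      A⁻¹ * (n ^ (-ε) * lowRM d n M m b) ≤ T := by
    intro B h1 h2
    apply hfin _ Z1
    have h3 := root_bound (k := d) (by omega) hn hA hε (by positivity) hT0.le (h1.trans h2)
    have h4 : (n ^ 2) ^ (1 / (d:ℝ)) = n ^ (2 / (d:ℝ)) := by
      rw [← Real.rpow_natCast, ← Real.rpow_mul hn0.le]
      congr 1
      push_cast
      ring
    rwa [h4] at h3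
  rcases h with h | h | h | h | h | h
  · exact hsq (pow_le_pow_left₀ hn0.le h 2) hg
  · apply hfin n
    · refine Z1.trans ?_
      calc n ^ (2 / (d:ℝ)) ≤ n ^ (1:ℝ) := by
            apply Real.rpow_le_rpow_of_exponent_le hn
            rw [div_le_one hd0]; exact hD
        _ = n := Real.rpow_one n
    · have h1 : n ≤ A * n ^ ε * T ^ 1 := by
        refine h.trans ?_
        have h2 := hpow 1 hd2
        rw [pow_one, pow_one] at h2
        calc Y * (T + 1) ≤ Y * (2 ^ (d ^ 2) * T) := mul_le_mul_of_nonneg_left h2 hY0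
          _ = (Y * 2 ^ (d ^ 2)) * T ^ 1 := by ring
          _ ≤ (A * n ^ ε) * T ^ 1 := mul_le_mul_of_nonneg_right hY (by positivity)
      have h3 := root_bound (k := 1) le_rfl hn hA hε hn0.le hT0.le h1
      simpa using h3
  · refine hsq h ?_
    calc Y * (T + 1) ^ d ≤ Y * (2 ^ (d ^ 2) * T ^ d) := mul_le_mul_of_nonneg_left (hpow d hdd) hY0
      _ = (Y * 2 ^ (d ^ 2)) * T ^ d := by ring
      _ ≤ (A * n ^ ε) * T ^ d := mul_le_mul_of_nonneg_right hY (by positivity)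
  · apply hfin _ Z4
    have hmp : (0:ℝ) < m ^ (d - 1) := by positivity
    have h1 : n ^ (3 * d - 2) / m ^ (d - 1) ≤ A * n ^ ε * T ^ (d ^ 2) := by
      rw [div_le_iff₀ hmp]
      refine h.trans ?_
      calc Y * ((T + 1) ^ (d ^ 2) * m ^ (d - 1))
          ≤ Y * ((2 ^ (d ^ 2) * T ^ (d ^ 2)) * m ^ (d - 1)) := by
            apply mul_le_mul_of_nonneg_left _ hY0
            exact mul_le_mul_of_nonneg_right (hpow _ le_rfl) hmp.le
        _ = (Y * 2 ^ (d ^ 2)) * T ^ (d ^ 2) * m ^ (d - 1) := by ring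
        _ ≤ (A * n ^ ε) * T ^ (d ^ 2) * m ^ (d - 1) := by
            apply mul_le_mul_of_nonneg_right _ hmp.le
            exact mul_le_mul_of_nonneg_right hY (by positivity)
    have h3 := root_bound (k := d ^ 2) hd2 hn hA hε (by positivity) hT0.le h1
    have h4 : (n ^ (3 * (d:ℝ) - 2) / m ^ ((d:ℝ) - 1)) = n ^ (3 * d - 2) / m ^ (d - 1) := by
      rw [← hcast3, ← hcast, Real.rpow_natCast, Real.rpow_natCast]
    rw [h4]
    push_cast at h3
    exact h3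
  · apply hfin _ Z2
    have hMp : (0:ℝ) < M ^ (d - 1) := by positivity
    have h1 : n ^ d / M ^ (d - 1) ≤ A * n ^ ε * T ^ d := by
      rw [div_le_iff₀ hMp]
      refine h.trans ?_
      calc Y * ((T + 1) ^ d * M ^ (d - 1))
          ≤ Y * ((2 ^ (d ^ 2) * T ^ d) * M ^ (d - 1)) := by
            apply mul_le_mul_of_nonneg_left _ hY0
            exact mul_le_mul_of_nonneg_right (hpow _ hdd) hMp.le
        _ = (Y * 2 ^ (d ^ 2)) * T ^ d * M ^ (d - 1) := by ring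
        _ ≤ (A * n ^ ε) * T ^ d * M ^ (d - 1) := by
            apply mul_le_mul_of_nonneg_right _ hMp.le
            exact mul_le_mul_of_nonneg_right hY (by positivity)
    have h3 := root_bound (k := d) (by omega) hn hA hε (by positivity) hT0.le h1
    have h4 : (n ^ d / M ^ (d - 1)) ^ (1 / (d:ℝ)) = n / M ^ (((d:ℝ) - 1) / d) := by
      rw [Real.div_rpow (by positivity) (by positivity), ← Real.rpow_natCast n d,
        ← Real.rpow_mul hn0.le, mul_one_div_cancel hd0.ne', Real.rpow_one,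
        ← Real.rpow_natCast M (d - 1), ← Real.rpow_mul hM0.le, hcast, mul_one_div]
    rwa [h4] at h3
  · apply hfin _ Z3
    have hbp : (0:ℝ) < b ^ (d - 1) := by positivity
    have h1 : n / b ^ (d - 1) ≤ A * n ^ ε * T ^ 1 := by
      rw [div_le_iff₀ hbp]
      refine h.trans ?_
      have h2 := hpow 1 hd2
      rw [pow_one, pow_one] at h2
      calc Y * ((T + 1) * b ^ (d - 1))
          ≤ Y * ((2 ^ (d ^ 2) * T) * b ^ (d - 1)) := by
            apply mul_le_mul_of_nonneg_left _ hY0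
            exact mul_le_mul_of_nonneg_right h2 hbp.le
        _ = (Y * 2 ^ (d ^ 2)) * T ^ 1 * b ^ (d - 1) := by ring
        _ ≤ (A * n ^ ε) * T ^ 1 * b ^ (d - 1) := by
            apply mul_le_mul_of_nonneg_right _ hbp.le
            exact mul_le_mul_of_nonneg_right hY (by positivity)
    have h3 := root_bound (k := 1) le_rfl hn hA hε (by positivity) hT0.le h1
    have h4 : n / b ^ ((d:ℝ) - 1) = n / b ^ (d - 1) := by
      rw [← hcast, Real.rpow_natCast]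
    rw [h4]
    simpa using h3

theorem fe_pred_le_half (d : ℕ) (hd : 2 ≤ d) : fe (d - 1) ≤ (d:ℝ) / 2 := by
  have h1 : (2:ℝ) ≤ d := by exact_mod_cast hd
  have h2 : ((d - 1 : ℕ) : ℝ) = (d:ℝ) - 1 := by rw [Nat.cast_sub (by omega)]; simp
  unfold fe
  rw [h2, div_le_div_iff₀ (by linarith) (by norm_num)]
  nlinarith

/-- large sets: `KeyRM` gives the bound -/
theorem rm_large (d : ℕ) (hd : 2 ≤ d) (K : ℝ) (c : ℕ) (hK : 1 ≤ K) (hkey : KeyRM d K c)
    (ε η : ℝ) (hη0 : 0 < η) (hη1 : η ≤ 1) (hηε : ((c:ℝ) + 1) * η ≤ ε)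
    (C : ℕ → ℝ) (hC0 : ∀ j, 0 < C j) (I : ℕ) (hI : 3 ≤ η * I)
    (hC : ∀ j, ∀ t : ℕ, 1 ≤ t → PinnedBy j t (C j * (t:ℝ) ^ (fe j + η / 2)))
    (A : ℝ) (hA1 : 1 ≤ A) (hA2 : K * 2 ^ c * 2 ^ (d ^ 2) ≤ A) (hA3 : 4 * C (d - 1) ^ 2 ≤ A)
    (P : Finset (EuclideanSpace ℝ (Fin d))) (M m b t : ℕ) (hP : 2 ≤ P.card)
    (hM : 1 ≤ M) (hm : 1 ≤ m) (hb : 1 ≤ b) (ht : 1 ≤ t) (htP : t + 1 ≤ P.card)
    (hpin : ∀ q ∈ P, (open scoped Classical in (P.image (dist q)).card) ≤ t + 1)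
    (hmir : open scoped Classical in
      2 * (P.filter (fun p => b < (mir P M m p).card)).card ≤ P.card)
    (n : ℝ) (hn : n = P.card)
    (e1 : 20 * (Real.log ((2 ^ 21) * n ^ (2 * η + 3)) + 1) ≤ n ^ η)
    (e2 : 2 ^ (I + 1) * n ^ (0:ℝ) ≤ n ^ η)
    (e3 : 64 * n ^ (1 + η) ≤ n ^ (3:ℝ))
    (e5 : ∀ j, j < d → C j * n ^ (η / 2) ≤ n ^ η) :
    A⁻¹ * (n ^ (-ε) * lowRM d n M m b) ≤ t := by
  classical
  have hn1 : 1 ≤ n := by rw [hn]; exact_mod_cast (by omega : 1 ≤ P.card)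
  have hn0 : 0 < n := by linarith
  have hT1 : (1:ℝ) ≤ t := by exact_mod_cast ht
  have hT0 : (0:ℝ) < t := by linarith
  have hTn : (t:ℝ) + 1 ≤ n := by rw [hn]; exact_mod_cast htP
  have hnη : 1 ≤ n ^ η := Real.one_le_rpow hn1 hη0.le
  obtain ⟨l, hl⟩ : ∃ l : ℕ, l = ⌈n ^ η⌉₊ := ⟨_, rfl⟩
  have hl1 : n ^ η ≤ l := by rw [hl]; exact Nat.le_ceil _
  have hl2 : (l:ℝ) ≤ 2 * n ^ η := by
    have := Nat.ceil_lt_add_one (show 0 ≤ n ^ η by positivity)
    rw [← hl] at this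
    linarith only [hnη, this]
  have hl0 : (0:ℝ) < l := by linarith only [hnη, hl1]
  obtain ⟨N, hN⟩ : ∃ N : ℝ, N = 8 * n ^ 2 := ⟨_, rfl⟩
  have hn2 : 1 ≤ n ^ 2 := one_le_pow₀ hn1
  have hN1 : 1 ≤ N := by rw [hN]; linarith only [hn2]
  have hcast : (((t + 1 : ℕ)) : ℝ) = (t:ℝ) + 1 := by push_cast; ring
  have hbig : n ^ 2 ≤ n ^ (2 * η + 3) := by
    rw [← Real.rpow_natCast]
    apply Real.rpow_le_rpow_of_exponent_le hn1
    push_cast
    linarith only [hη0]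
  have hbig3 : n ^ 3 * n ^ (2 * η) = n ^ (2 * η + 3) := by
    rw [Real.rpow_add hn0, mul_comm]
    norm_num
  have hlogN : 2 * Real.log N + 1 ≤ n ^ η := by
    refine le_trans ?_ e1
    have h1 : N ≤ 2 ^ 21 * n ^ (2 * η + 3) := by
      rw [hN]
      have h3 : 0 < n ^ (2 * η + 3) := by positivity
      linarith only [hbig, h3]
    have h2 := Real.log_le_log (by linarith only [hN1]) h1
    have h3 : 0 ≤ Real.log N := Real.log_nonneg hN1
    linarith only [h2, h3]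
  have q1 : 2 ^ (I + 1) ≤ l := by
    have h1 : ((2 ^ (I + 1) : ℕ) : ℝ) ≤ l := by
      rw [Real.rpow_zero, mul_one] at e2
      push_cast
      exact e2.trans hl1
    exact_mod_cast h1
  have q2 : 16 * (2 * Real.log N + 1) * ((((t + 1 : ℕ)) : ℝ) + 2) ≤ (l:ℝ) ^ I := by
    have h1 : (((t + 1 : ℕ)) : ℝ) + 2 ≤ 4 * n := by rw [hcast]; linarith only [hTn, hn1]
    have h2 : 16 * (2 * Real.log N + 1) * ((((t + 1 : ℕ)) : ℝ) + 2) ≤ 16 * n ^ η * (4 * n) := by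
      have h3 : 0 ≤ Real.log N := Real.log_nonneg hN1
      apply mul_le_mul _ h1 (by positivity) (by positivity)
      linarith only [hlogN]
    have h4 : 16 * n ^ η * (4 * n) = 64 * n ^ (1 + η) := by
      rw [Real.rpow_add hn0, Real.rpow_one]; ring
    have h5 : n ^ (3:ℝ) ≤ (l:ℝ) ^ I := by
      calc n ^ (3:ℝ) ≤ n ^ ((I:ℝ) * η) :=
            Real.rpow_le_rpow_of_exponent_le hn1 (by linarith only [hI])
        _ = (n ^ η) ^ I := (rpow_nat_mul n η hn0.le I).symm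
        _ ≤ (l:ℝ) ^ I := pow_le_pow_left₀ (by positivity) hl1 I
    linarith only [e3, h2, h4, h5]
  have q3 : 2 * (P.card : ℝ) ^ 2 ≤ N := by
    rw [← hn, hN]
    linarith only [hn2]
  have q4 : (P.card : ℝ) * (((t + 1 : ℕ)) : ℝ) ≤ N := by
    rw [← hn, hN, hcast]
    have : n * ((t:ℝ) + 1) ≤ n * n := mul_le_mul_of_nonneg_left hTn hn0.le
    nlinarith only [this, hn2]
  have q5 : 20 * (Real.log (2 ^ 14 * N * (l:ℝ) ^ 2 * (((t + 1 : ℕ)) : ℝ) + 3) + 1) ≤ l := by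
    refine le_trans ?_ (e1.trans hl1)
    have h1 : 2 ^ 14 * N * (l:ℝ) ^ 2 * (((t + 1 : ℕ)) : ℝ) + 3 ≤
        2 ^ 21 * n ^ (2 * η + 3) := by
      have h2 : (l:ℝ) ^ 2 ≤ (2 * n ^ η) ^ 2 := pow_le_pow_left₀ hl0.le hl2 2
      have h3 : (2 * n ^ η) ^ 2 = 4 * n ^ (2 * η) := by
        rw [mul_pow, rpow_nat_mul n η hn0.le 2]; norm_num
      rw [h3] at h2
      have h4 : 2 ^ 14 * N * (l:ℝ) ^ 2 * (((t + 1 : ℕ)) : ℝ) ≤
          2 ^ 14 * N * (4 * n ^ (2 * η)) * n := by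
        rw [hcast]
        apply mul_le_mul _ hTn (by positivity) (by positivity)
        exact mul_le_mul_of_nonneg_left h2 (by positivity)
      have h5 : 2 ^ 14 * N * (4 * n ^ (2 * η)) * n = 2 ^ 19 * n ^ (2 * η + 3) := by
        rw [hN, ← hbig3]
        ring
      have h7 : 1 ≤ n ^ (2 * η + 3) := Real.one_le_rpow hn1 (by linarith only [hη0])
      rw [h5] at h4
      linarith only [h4, h7]
    have h2 := Real.log_le_log (by positivity) h1
    linarith only [h2]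
  have q6 : ∀ j < d, PinnedBy j t (l * (((t + 1 : ℕ)) : ℝ) ^ j) := by
    intro j hj
    apply pinnedBy_mono le_rfl _ (hC j t ht)
    have h1 : (t:ℝ) ^ (fe j + η / 2) ≤ n ^ (η / 2) * (t:ℝ) ^ j := by
      rw [Real.rpow_add hT0, mul_comm (n ^ (η / 2))]
      apply mul_le_mul _ _ (by positivity) (by positivity)
      · rw [← Real.rpow_natCast (t:ℝ) j]
        exact Real.rpow_le_rpow_of_exponent_le hT1 (fe_le_self j)
      · exact Real.rpow_le_rpow hT0.le (by linarith only [hTn]) (by linarith only [hη0])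
    have h2 : (t:ℝ) ^ j ≤ (((t + 1 : ℕ)) : ℝ) ^ j := by
      apply pow_le_pow_left₀ hT0.le
      rw [hcast]; linarith only []
    calc C j * (t:ℝ) ^ (fe j + η / 2) ≤ C j * (n ^ (η / 2) * (t:ℝ) ^ j) :=
          mul_le_mul_of_nonneg_left h1 (hC0 j).le
      _ = (C j * n ^ (η / 2)) * (t:ℝ) ^ j := by ring
      _ ≤ l * (((t + 1 : ℕ)) : ℝ) ^ j :=
          mul_le_mul ((e5 j hj).trans hl1) h2 (by positivity) hl0.le
  have hfin := hkey P t (t + 1) l I N (C (d - 1) * (t:ℝ) ^ (fe (d - 1) + η / 2)) M m b rfl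
    (fun p hp => by convert hpin p hp) hN1 (hlogN.trans hl1) q1 q2 q3 q4 q5 q6
    (hC (d - 1) t ht) hM hm hb (by convert hmir)
  have hε : 0 ≤ ε := by
    have : 0 ≤ ((c:ℝ) + 1) * η := by positivity
    linarith only [this, hηε]
  have hY0 : 0 ≤ K * (l:ℝ) ^ c := by positivity
  have hY : (K * (l:ℝ) ^ c) * 2 ^ (d ^ 2) ≤ A * n ^ ε := by
    have h3 : (l:ℝ) ^ c ≤ (2 * n ^ η) ^ c := pow_le_pow_left₀ hl0.le hl2 c
    have h4 : (2 * n ^ η) ^ c ≤ 2 ^ c * n ^ ε := by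
      rw [mul_pow, rpow_nat_mul n η hn0.le c]
      apply mul_le_mul_of_nonneg_left _ (by positivity)
      apply Real.rpow_le_rpow_of_exponent_le hn1
      linarith only [hηε, hη0]
    calc (K * (l:ℝ) ^ c) * 2 ^ (d ^ 2) ≤ (K * (2 ^ c * n ^ ε)) * 2 ^ (d ^ 2) := by
          apply mul_le_mul_of_nonneg_right _ (by positivity)
          exact mul_le_mul_of_nonneg_left (h3.trans h4) (by positivity)
      _ = (K * 2 ^ c * 2 ^ (d ^ 2)) * n ^ ε := by ring
      _ ≤ A * n ^ ε := mul_le_mul_of_nonneg_right hA2 (by positivity)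
  have hCd : 0 < C (d - 1) := hC0 _
  have hg0 : 0 ≤ C (d - 1) * (t:ℝ) ^ (fe (d - 1) + η / 2) := by positivity
  have hg : (2 * (C (d - 1) * (t:ℝ) ^ (fe (d - 1) + η / 2))) ^ 2 ≤ A * n ^ ε * (t:ℝ) ^ d := by
    have h1 : (t:ℝ) ^ (fe (d - 1) + η / 2) ≤ (t:ℝ) ^ ((d:ℝ) / 2) * n ^ (η / 2) := by
      rw [Real.rpow_add hT0]
      apply mul_le_mul _ _ (by positivity) (by positivity)
      · exact Real.rpow_le_rpow_of_exponent_le hT1 (fe_pred_le_half d hd)
      · exact Real.rpow_le_rpow hT0.le (by linarith only [hTn]) (by linarith only [hη0])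
    have h2 : ((t:ℝ) ^ ((d:ℝ) / 2)) ^ 2 = (t:ℝ) ^ d := by
      rw [rpow_nat_mul _ _ hT0.le, ← Real.rpow_natCast (t:ℝ) d]
      congr 1
      push_cast
      ring
    have h3 : (n ^ (η / 2)) ^ 2 = n ^ η := by
      rw [rpow_nat_mul _ _ hn0.le]
      congr 1
      push_cast
      ring
    have h4 : n ^ η ≤ n ^ ε := by
      apply Real.rpow_le_rpow_of_exponent_le hn1
      have : 0 ≤ (c:ℝ) * η := by positivity
      linarith only [this, hηε]
    calc (2 * (C (d - 1) * (t:ℝ) ^ (fe (d - 1) + η / 2))) ^ 2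
        ≤ (2 * (C (d - 1) * ((t:ℝ) ^ ((d:ℝ) / 2) * n ^ (η / 2)))) ^ 2 := by
          apply pow_le_pow_left₀ (by positivity)
          apply mul_le_mul_of_nonneg_left _ (by norm_num)
          exact mul_le_mul_of_nonneg_left h1 hCd.le
      _ = (4 * C (d - 1) ^ 2) * (((t:ℝ) ^ ((d:ℝ) / 2)) ^ 2 * (n ^ (η / 2)) ^ 2) := by ring
      _ = (4 * C (d - 1) ^ 2) * ((t:ℝ) ^ d * n ^ η) := by rw [h2, h3]
      _ ≤ A * ((t:ℝ) ^ d * n ^ ε) := by
          apply mul_le_mul hA3 _ (by positivity) (by positivity)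
          exact mul_le_mul_of_nonneg_left h4 (by positivity)
      _ = A * n ^ ε * (t:ℝ) ^ d := by ring
  refine rm_alt hd hn1 hT1 (by exact_mod_cast hM) (by exact_mod_cast hm) (by exact_mod_cast hb)
    hA1 hε hY hY0 hg0 hg ?_
  rw [hcast, ← hn] at hfin
  exact hfin

/-- all sets with at least two points -/
theorem rm_final (d : ℕ) (hd : 2 ≤ d) (K : ℝ) (c : ℕ) (hK : 1 ≤ K) (hkey : KeyRM d K c)
    (ε : ℝ) (hε : 0 < ε) : ∃ c0 : ℝ, 0 < c0 ∧
    ∀ (P : Finset (EuclideanSpace ℝ (Fin d))) (M m b : ℕ), 2 ≤ P.card →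
      1 ≤ M → 1 ≤ m → 1 ≤ b →
      (open scoped Classical in
        2 * (P.filter (fun p => b < (mir P M m p).card)).card ≤ P.card) →
      ∃ p ∈ P, c0 * ((P.card : ℝ) ^ (-ε) * lowRM d P.card M m b) ≤
        ((open scoped Classical in ((P.erase p).image (dist p)).card : ℕ) : ℝ) := by
  classical
  have hD : (2:ℝ) ≤ d := by exact_mod_cast hd
  have hc0 : (0:ℝ) ≤ c := by positivity
  obtain ⟨η, hη⟩ : ∃ η : ℝ, η = min ε 1 / (c + 1) := ⟨_, rfl⟩
  have hmin0 : 0 < min ε 1 := lt_min hε one_pos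
  have hη0 : 0 < η := by rw [hη]; positivity
  have hcη : ((c:ℝ) + 1) * η = min ε 1 := by rw [hη]; field_simp
  have hη1 : η ≤ 1 := by
    have h1 : min ε 1 ≤ 1 := min_le_right _ _
    have h2 : 0 ≤ (c:ℝ) * η := by positivity
    linarith only [hcη, h1, h2]
  have hηε : ((c:ℝ) + 1) * η ≤ ε := by rw [hcη]; exact min_le_left _ _
  obtain ⟨I, hI⟩ : ∃ I : ℕ, I = ⌈3 / η⌉₊ := ⟨_, rfl⟩
  have hI3 : 3 ≤ η * I := by
    have h1 : 3 / η ≤ I := by rw [hI]; exact Nat.le_ceil _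
    rw [div_le_iff₀ hη0] at h1
    linarith only [h1]
  have hCex : ∀ j, ∃ C : ℝ, 0 < C ∧
      ∀ t : ℕ, 1 ≤ t → PinnedBy j t (C * (t:ℝ) ^ (fe j + η / 2)) := by
    intro j
    exact main_pinned j (η / 2) (by linarith only [hη0])
  choose C hC0 hC using hCex
  obtain ⟨T1, hT1, hev1⟩ := ev_log2 (2 ^ 21) (2 * η + 3) η (by norm_num) hη0
  obtain ⟨T2, hT2, hev2⟩ := ev_rpow (2 ^ (I + 1)) 0 η hη0
  obtain ⟨T3, hT3, hev3⟩ := ev_rpow 64 (1 + η) 3 (by linarith only [hη1])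
  have hev5' : ∃ T5 : ℝ, ∀ j, j < d → ∀ T : ℝ, T5 ≤ T → C j * T ^ (η / 2) ≤ T ^ η := by
    have h1 : ∀ j, ∃ T0 : ℝ, 1 ≤ T0 ∧ ∀ T : ℝ, T0 ≤ T → C j * T ^ (η / 2) ≤ T ^ η :=
      fun j => ev_rpow (C j) (η / 2) η (by linarith only [hη0])
    choose T5 hT5 hev5 using h1
    refine ⟨∑ j ∈ Finset.range d, T5 j, ?_⟩
    intro j hj T hT
    apply hev5 j T
    refine le_trans ?_ hT
    exact Finset.single_le_sum (fun i _ => by linarith only [hT5 i]) (mem_range.mpr hj)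
  obtain ⟨T5, hev5⟩ := hev5'
  obtain ⟨n0, hn0⟩ : ∃ n0 : ℝ, n0 = max (max T1 T2) (max T3 T5) := ⟨_, rfl⟩
  have hn01 : 1 ≤ n0 := by
    rw [hn0]; exact hT1.trans ((le_max_left _ _).trans (le_max_left _ _))
  obtain ⟨A, hA⟩ : ∃ A : ℝ, A = K * 2 ^ c * 2 ^ (d ^ 2) + 4 * C (d - 1) ^ 2 + n0 := ⟨_, rfl⟩
  have hK0 : 0 < K * 2 ^ c * 2 ^ (d ^ 2) := by positivity
  have hC2 : 0 ≤ 4 * C (d - 1) ^ 2 := by positivity
  have hA1 : 1 ≤ A := by rw [hA]; linarith only [hn01, hK0, hC2]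
  have hA2 : K * 2 ^ c * 2 ^ (d ^ 2) ≤ A := by rw [hA]; linarith only [hn01, hK0, hC2]
  have hA3 : 4 * C (d - 1) ^ 2 ≤ A := by rw [hA]; linarith only [hn01, hK0, hC2]
  have hA4 : n0 ≤ A := by rw [hA]; linarith only [hn01, hK0, hC2]
  have hA0 : 0 < A := by linarith only [hA1]
  refine ⟨A⁻¹, by positivity, ?_⟩
  intro P M m b hP hM hm hb hmir
  have hPne : P.Nonempty := Finset.card_pos.mp (by omega)
  obtain ⟨p, hp, hmax⟩ := P.exists_max_image (fun p => ((P.erase p).image (dist p)).card) hPne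
  refine ⟨p, hp, ?_⟩
  obtain ⟨t, ht⟩ : ∃ t : ℕ, t = ((P.erase p).image (dist p)).card := ⟨_, rfl⟩
  have ht1 : 1 ≤ t := by
    rw [ht, Nat.one_le_iff_ne_zero, ← Nat.pos_iff_ne_zero, Finset.card_pos, Finset.image_nonempty,
      ← Finset.card_pos, Finset.card_erase_of_mem hp]
    omega
  have htP : t + 1 ≤ P.card := by
    have h1 : t ≤ (P.erase p).card := by rw [ht]; exact Finset.card_image_le
    rw [Finset.card_erase_of_mem hp] at h1
    omega
  have hpin : ∀ q ∈ P, (P.image (dist q)).card ≤ t + 1 := by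
    intro q hq
    have h1 : P.image (dist q) = insert (dist q q) ((P.erase q).image (dist q)) := by
      rw [← Finset.image_insert, Finset.insert_erase hq]
    rw [h1]
    refine (Finset.card_insert_le _ _).trans (Nat.add_le_add_right ?_ 1)
    rw [ht]
    exact hmax q hq
  have hgoal : A⁻¹ * ((P.card : ℝ) ^ (-ε) * lowRM d P.card M m b) ≤ (t:ℝ) := by
    have hn1 : (1:ℝ) ≤ P.card := by exact_mod_cast (by omega : 1 ≤ P.card)
    rcases le_or_gt n0 (P.card : ℝ) with h | h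
    · have h1 : T1 ≤ (P.card : ℝ) :=
        ((le_max_left _ _).trans (le_max_left _ _)).trans (hn0 ▸ h)
      have h2 : T2 ≤ (P.card : ℝ) :=
        ((le_max_right _ _).trans (le_max_left _ _)).trans (hn0 ▸ h)
      have h3 : T3 ≤ (P.card : ℝ) :=
        ((le_max_left _ _).trans (le_max_right _ _)).trans (hn0 ▸ h)
      have h5 : T5 ≤ (P.card : ℝ) :=
        ((le_max_right _ _).trans (le_max_right _ _)).trans (hn0 ▸ h)
      exact rm_large d hd K c hK hkey ε η hη0 hη1 hηε C hC0 I hI3 hC A hA1 hA2 hA3 P M m b t hP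
        hM hm hb ht1 htP (fun q hq => by convert hpin q hq) (by convert hmir) _ rfl
        (hev1 _ h1) (hev2 _ h2) (hev3 _ h3) (fun j hj => hev5 j hj _ h5)
    · have h1 : (P.card : ℝ) ^ (-ε) ≤ 1 := Real.rpow_le_one_of_one_le_of_nonpos hn1 (by linarith)
      have h2 : lowRM d P.card M m b ≤ (P.card : ℝ) := by
        refine ((min_le_left _ _).trans (min_le_left _ _)).trans ?_
        calc (P.card : ℝ) ^ (2 / (d:ℝ)) ≤ (P.card : ℝ) ^ (1:ℝ) := by
              apply Real.rpow_le_rpow_of_exponent_le hn1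
              rw [div_le_one (by linarith)]; exact hD
          _ = P.card := Real.rpow_one _
      have h3 : 0 ≤ lowRM d P.card M m b :=
        lowRM_nonneg d _ _ _ _ (by positivity) (by positivity) (by positivity) (by positivity)
      have h4 : (P.card : ℝ) ^ (-ε) * lowRM d P.card M m b ≤ A := by
        calc (P.card : ℝ) ^ (-ε) * lowRM d P.card M m b ≤ 1 * (P.card : ℝ) :=
              mul_le_mul h1 h2 h3 (by norm_num)
          _ ≤ A := by rw [one_mul]; linarith only [h, hA4]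
      have h5 : A⁻¹ * ((P.card : ℝ) ^ (-ε) * lowRM d P.card M m b) ≤ 1 := by
        rw [inv_mul_le_iff₀ hA0]; linarith only [h4]
      have h6 : (1:ℝ) ≤ t := by exact_mod_cast ht1
      linarith only [h5, h6]
  rw [ht] at hgoal
  convert hgoal

end Vale.Agent.P054M
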