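import Vale.Agent.P054.MathlibUsed
import Mathlib.Geometry.Euclidean.PerpBisector
import Vale.Agent.P054.H343.RMFinal
attribute [-instance] ProperSMul.toContinuousSMul IsTopologicalTorsor.toContinuousSMul IdemSemiring.toCanonicallyOrderedAdd IdemSemiring.toMulLeftMono IdemSemiring.toMulRightMono AddQuantale.instAddLeftMono AddQuantale.instAddRightMono Quantale.instMulLeftMono Quantale.instMulRightMono FiniteDimensional.rclike_to_real IsScalarTower.complexToReal FiniteDimensional.complexToReal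

set_option linter.all false
set_option autoImplicit false

open Finset Vale.Agent.P054K AffineSubspace

/-! P054, rich mirrors: bisectors and dual lines. -/

namespace Vale.Agent.P054M

theorem mem_perp_iff {d : ℕ} (π : EuclideanSpace ℝ (Fin d) × EuclideanSpace ℝ (Fin d))
    (z : EuclideanSpace ℝ (Fin d)) : z ∈ perpBisector π.1 π.2 ↔ dualVec π ∈ hyp z := by
  rw [dualVec_mem_hyp, mem_perpBisector_iff_dist_eq]

/-- two pairs have the same bisector iff their dual vectors are proportional -/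
theorem perp_eq_iff {d : ℕ} (σ π : EuclideanSpace ℝ (Fin d) × EuclideanSpace ℝ (Fin d))
    (hσ : σ.1 ≠ σ.2) (hπ : π.1 ≠ π.2) :
    dualVec σ ∈ Submodule.span ℝ {dualVec π} ↔
      perpBisector σ.1 σ.2 = perpBisector π.1 π.2 := by
  constructor
  · intro h
    rw [Submodule.mem_span_singleton] at h
    obtain ⟨a, ha⟩ := h
    have ha0 : a ≠ 0 := by
      intro h0
      rw [h0, zero_smul] at ha
      exact dualVec_ne_zero σ hσ ha.symm
    ext z
    rw [mem_perp_iff, mem_perp_iff, ← ha]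
    exact Submodule.smul_mem_iff _ ha0
  · intro h
    have h1 := congrArg AffineSubspace.direction h
    rw [direction_perpBisector, direction_perpBisector] at h1
    have h2 := congrArg (fun U : Submodule ℝ (EuclideanSpace ℝ (Fin d)) => Uᗮ) h1
    simp only [Submodule.orthogonal_orthogonal] at h2
    have h3 : σ.2 -ᵥ σ.1 ∈ Submodule.span ℝ {π.2 -ᵥ π.1} := by
      rw [← h2]; exact Submodule.mem_span_singleton_self _
    rw [Submodule.mem_span_singleton] at h3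
    obtain ⟨a, ha⟩ := h3
    have ha' : σ.1 - σ.2 = a • (π.1 - π.2) := by
      rw [vsub_eq_sub, vsub_eq_sub] at ha
      rw [← neg_sub σ.2 σ.1, ← ha, ← smul_neg, neg_sub]
    rw [Submodule.mem_span_singleton]
    refine ⟨a, ?_⟩
    obtain ⟨z, hz⟩ : ∃ z, z ∈ perpBisector σ.1 σ.2 := ⟨_, midpoint_mem_perpBisector _ _⟩
    have hz1 := (mem_perp_iff σ z).mp hz
    rw [h] at hz
    have hz2 := (mem_perp_iff π z).mp hz
    unfold dualVec at hz1 hz2 ⊢
    rw [mem_hyp] at hz1 hz2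
    rw [Prod.smul_mk, Prod.mk.injEq]
    refine ⟨ha'.symm, ?_⟩
    rw [← hz1, ← hz2, ha', real_inner_smul_right, smul_eq_mul]
    ring

/-- `H` contains more than `M` points of `P` and is the perpendicular bisector of more than `m`
ordered pairs of distinct points of `P` -/
def MirrorN {d : ℕ} (P : Finset (EuclideanSpace ℝ (Fin d))) (M m : ℕ)
    (H : AffineSubspace ℝ (EuclideanSpace ℝ (Fin d))) : Prop :=
  M < {z | z ∈ P ∧ z ∈ H}.ncard ∧
    m < {q : EuclideanSpace ℝ (Fin d) × EuclideanSpace ℝ (Fin d) |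
      q.1 ∈ P ∧ q.2 ∈ P ∧ q.1 ≠ q.2 ∧ perpBisector q.1 q.2 = H}.ncard

theorem card_image_le_of_factor {α β γ : Type*} [DecidableEq β] [DecidableEq γ] (F : Finset α)
    (f : α → β) (g : α → γ) (h : ∀ a ∈ F, ∀ b ∈ F, g a = g b → f a = f b) :
    (F.image f).card ≤ (F.image g).card := by
  classical
  rcases F.eq_empty_or_nonempty with hF | ⟨a0, ha0⟩
  · subst hF; simp
  set k : γ → β := fun y => if hy : ∃ a ∈ F, g a = y then f hy.choose else f a0 with hk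
  have h1 : F.image f = (F.image g).image k := by
    rw [Finset.image_image]
    apply Finset.image_congr
    intro a ha
    have hex : ∃ a' ∈ F, g a' = g a := ⟨a, ha, rfl⟩
    simp only [Function.comp, hk]
    rw [dif_pos hex]
    exact (h _ hex.choose_spec.1 a ha hex.choose_spec.2).symm
  rw [h1]
  exact Finset.card_image_le

theorem pc_eq {d : ℕ} (P : Finset (EuclideanSpace ℝ (Fin d)))
    (π : EuclideanSpace ℝ (Fin d) × EuclideanSpace ℝ (Fin d)) :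
    pc P π = {z | z ∈ P ∧ z ∈ perpBisector π.1 π.2}.ncard := by
  classical
  have h : {z | z ∈ P ∧ z ∈ perpBisector π.1 π.2} =
      ((P.filter (fun z => dualVec π ∈ hyp z) : Finset (EuclideanSpace ℝ (Fin d))) :
        Set (EuclideanSpace ℝ (Fin d))) := by
    ext z
    simp only [Set.mem_ofPred_eq, Finset.coe_filter, mem_perp_iff]
  rw [h, Set.ncard_coe_finset]
  unfold pc
  congr

theorem mc_eq {d : ℕ} (P : Finset (EuclideanSpace ℝ (Fin d)))
    (π : EuclideanSpace ℝ (Fin d) × EuclideanSpace ℝ (Fin d)) (hπ : π.1 ≠ π.2) :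
    mc P π = {q : EuclideanSpace ℝ (Fin d) × EuclideanSpace ℝ (Fin d) |
      q.1 ∈ P ∧ q.2 ∈ P ∧ q.1 ≠ q.2 ∧
        perpBisector q.1 q.2 = perpBisector π.1 π.2}.ncard := by
  classical
  have h : {q : EuclideanSpace ℝ (Fin d) × EuclideanSpace ℝ (Fin d) |
      q.1 ∈ P ∧ q.2 ∈ P ∧ q.1 ≠ q.2 ∧ perpBisector q.1 q.2 = perpBisector π.1 π.2} =
      ((P.offDiag.filter (fun σ => dualVec σ ∈ Submodule.span ℝ {dualVec π}) :
        Finset (EuclideanSpace ℝ (Fin d) × EuclideanSpace ℝ (Fin d))) :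
        Set (EuclideanSpace ℝ (Fin d) × EuclideanSpace ℝ (Fin d))) := by
    ext q
    simp only [Set.mem_ofPred_eq, Finset.coe_filter, Finset.mem_offDiag]
    constructor
    · rintro ⟨h1, h2, h3, h4⟩
      exact ⟨⟨h1, h2, h3⟩, (perp_eq_iff q π h3 hπ).mpr h4⟩
    · rintro ⟨⟨h1, h2, h3⟩, h4⟩
      exact ⟨h1, h2, h3, (perp_eq_iff q π h3 hπ).mp h4⟩
  rw [h, Set.ncard_coe_finset]
  unfold mc
  congr

/-- the number of dual lines of mirrors through `p` is at most the number of mirrors through `p` -/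
theorem mir_card_le {d : ℕ} (P : Finset (EuclideanSpace ℝ (Fin d))) (M m : ℕ)
    (p : EuclideanSpace ℝ (Fin d)) :
    (mir P M m p).card ≤ {H | MirrorN P M m H ∧ p ∈ H}.ncard := by
  classical
  obtain ⟨F, hF⟩ : ∃ F : Finset (EuclideanSpace ℝ (Fin d) × EuclideanSpace ℝ (Fin d)),
      F = P.offDiag.filter (fun π => dualVec π ∈ hyp p ∧ M < pc P π ∧ m < mc P π) := ⟨_, rfl⟩
  have h1 : (mir P M m p).card ≤
      (F.image (fun π => perpBisector π.1 π.2)).card := by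
    have h2 : mir P M m p = F.image (fun π => Submodule.span ℝ {dualVec π}) := by
      unfold mir
      rw [hF]
    rw [h2]
    apply card_image_le_of_factor
    intro a ha b hb hab
    rw [hF, mem_filter, mem_offDiag] at ha hb
    have h3 := (perp_eq_iff a b ha.1.2.2 hb.1.2.2).mpr hab
    have h4 := (perp_eq_iff b a hb.1.2.2 ha.1.2.2).mpr hab.symm
    apply le_antisymm
    · rw [Submodule.span_singleton_le_iff_mem]; exact h3
    · rw [Submodule.span_singleton_le_iff_mem]; exact h4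
  refine h1.trans ?_
  rw [← Set.ncard_coe_finset]
  apply Set.ncard_le_ncard
  · intro H hH
    rw [Finset.mem_coe, mem_image] at hH
    obtain ⟨π, hπ, rfl⟩ := hH
    rw [hF, mem_filter, mem_offDiag] at hπ
    obtain ⟨⟨h2, h3, h4⟩, h5, h6, h7⟩ := hπ
    refine ⟨⟨?_, ?_⟩, (mem_perp_iff π p).mpr h5⟩
    · rw [← pc_eq]; exact h6
    · rw [← mc_eq P π h4]; exact h7
  · -- finiteness
    apply Set.Finite.subset (Finset.finite_toSet
      (P.offDiag.image (fun π => perpBisector π.1 π.2)))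
    rintro H ⟨⟨_, h2⟩, _⟩
    have h3 : {q : EuclideanSpace ℝ (Fin d) × EuclideanSpace ℝ (Fin d) |
        q.1 ∈ P ∧ q.2 ∈ P ∧ q.1 ≠ q.2 ∧ perpBisector q.1 q.2 = H}.Nonempty := by
      apply Set.nonempty_of_ncard_ne_zero
      omega
    obtain ⟨q, hq1, hq2, hq3, hq4⟩ := h3
    rw [Finset.mem_coe, mem_image]
    exact ⟨q, by rw [mem_offDiag]; exact ⟨hq1, hq2, hq3⟩, hq4⟩

/-- the hypothesis in terms of mirrors implies the one in terms of dual lines -/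
theorem hyp_of_mirror {d : ℕ} (P : Finset (EuclideanSpace ℝ (Fin d))) (M m b : ℕ)
    (h : 2 * {p | p ∈ P ∧ b < {H | MirrorN P M m H ∧ p ∈ H}.ncard}.ncard ≤ P.card) :
    open scoped Classical in
      2 * (P.filter (fun p => b < (mir P M m p).card)).card ≤ P.card := by
  classical
  refine le_trans ?_ h
  apply Nat.mul_le_mul_left
  rw [← Set.ncard_coe_finset]
  apply Set.ncard_le_ncard
  · intro p hp
    rw [Finset.mem_coe, mem_filter] at hp
    exact ⟨hp.1, lt_of_lt_of_le hp.2 (mir_card_le P M m p)⟩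
  · exact Set.Finite.subset P.finite_toSet (fun p hp => hp.1)

theorem pin_ncard {d : ℕ} (P : Finset (EuclideanSpace ℝ (Fin d)))
    (p : EuclideanSpace ℝ (Fin d)) [DecidableEq (EuclideanSpace ℝ (Fin d))] :
    {r : ℝ | ∃ q ∈ P, q ≠ p ∧ r = dist p q}.ncard = ((P.erase p).image (dist p)).card := by
  have h1 : {r : ℝ | ∃ q ∈ P, q ≠ p ∧ r = dist p q} =
      (((P.erase p).image (dist p) : Finset ℝ) : Set ℝ) := by
    ext r
    simp only [Set.mem_ofPred_eq, Finset.coe_image, Set.mem_image, Finset.mem_coe,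
      Finset.mem_erase]
    constructor
    · rintro ⟨q, hq, hne, rfl⟩
      exact ⟨q, ⟨hne, hq⟩, rfl⟩
    · rintro ⟨q, ⟨hne, hq⟩, rfl⟩
      exact ⟨q, hq, hne, rfl⟩
  rw [h1, Set.ncard_coe_finset]

/-- the same with real thresholds -/
def MirrorR {d : ℕ} (P : Finset (EuclideanSpace ℝ (Fin d))) (M m : ℝ)
    (H : AffineSubspace ℝ (EuclideanSpace ℝ (Fin d))) : Prop :=
  M < ({z | z ∈ P ∧ z ∈ H}.ncard : ℝ) ∧
    m < ({q : EuclideanSpace ℝ (Fin d) × EuclideanSpace ℝ (Fin d) |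
      q.1 ∈ P ∧ q.2 ∈ P ∧ q.1 ≠ q.2 ∧ perpBisector q.1 q.2 = H}.ncard : ℝ)

theorem mirrorR_iff {d : ℕ} (P : Finset (EuclideanSpace ℝ (Fin d))) {M m : ℝ} (hM : 0 ≤ M)
    (hm : 0 ≤ m) (H : AffineSubspace ℝ (EuclideanSpace ℝ (Fin d))) :
    MirrorR P M m H ↔ MirrorN P ⌊M⌋₊ ⌊m⌋₊ H := by
  unfold MirrorR MirrorN
  rw [Nat.floor_lt hM, Nat.floor_lt hm]

theorem lowRM_anti {d : ℕ} (hd : 2 ≤ d) {n M m b M' m' b' : ℝ} (hn : 0 ≤ n) (hM' : 1 ≤ M')
    (hm' : 1 ≤ m') (hb' : 1 ≤ b') (hM : M' ≤ M) (hm : m' ≤ m) (hb : b' ≤ b) :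
    lowRM d n M m b ≤ lowRM d n M' m' b' := by
  have hD : (2:ℝ) ≤ d := by exact_mod_cast hd
  have hM0 : 0 < M' := by linarith
  have hm0 : 0 < m' := by linarith
  have hb0 : 0 < b' := by linarith
  have hm1 : 0 < m := by linarith
  unfold lowRM
  refine min_le_min (min_le_min le_rfl ?_) (min_le_min ?_ ?_)
  · apply div_le_div_of_nonneg_left hn (by positivity)
    exact Real.rpow_le_rpow hM0.le hM (div_nonneg (by linarith) (by linarith))
  · apply div_le_div_of_nonneg_left hn (by positivity)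
    exact Real.rpow_le_rpow hb0.le hb (by linarith)
  · apply Real.rpow_le_rpow (by positivity) _ (by positivity)
    apply div_le_div_of_nonneg_left (by positivity) (by positivity)
    exact Real.rpow_le_rpow hm0.le hm (by linarith)

/-- the min form with real thresholds -/
theorem rm_real (d : ℕ) (hd : 2 ≤ d) (K : ℝ) (c : ℕ) (hK : 1 ≤ K) (hkey : KeyRM d K c)
    (ε : ℝ) (hε : 0 < ε) : ∃ c0 : ℝ, 0 < c0 ∧
    ∀ (P : Finset (EuclideanSpace ℝ (Fin d))) (M m b : ℝ), 2 ≤ P.card →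
      1 ≤ M → 1 ≤ m → 1 ≤ b →
      2 * {p | p ∈ P ∧ b < ({H | MirrorR P M m H ∧ p ∈ H}.ncard : ℝ)}.ncard ≤ P.card →
      ∃ p ∈ P, c0 * ((P.card : ℝ) ^ (-ε) * lowRM d P.card M m b) ≤
        (({r : ℝ | ∃ q ∈ P, q ≠ p ∧ r = dist p q}.ncard : ℕ) : ℝ) := by
  classical
  obtain ⟨c0, hc0, h⟩ := rm_final d hd K c hK hkey ε hε
  refine ⟨c0, hc0, ?_⟩
  intro P M m b hP hM hm hb hfew
  have hM1 : 1 ≤ ⌊M⌋₊ := Nat.le_floor (by exact_mod_cast hM)
  have hm1 : 1 ≤ ⌊m⌋₊ := Nat.le_floor (by exact_mod_cast hm)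
  have hb1 : 1 ≤ ⌊b⌋₊ := Nat.le_floor (by exact_mod_cast hb)
  have hset : ∀ p, {H | MirrorR P M m H ∧ p ∈ H} = {H | MirrorN P ⌊M⌋₊ ⌊m⌋₊ H ∧ p ∈ H} := by
    intro p
    ext H
    simp only [Set.mem_ofPred_eq]
    rw [mirrorR_iff P (by linarith) (by linarith)]
  have hfew' : 2 * {p | p ∈ P ∧ ⌊b⌋₊ < {H | MirrorN P ⌊M⌋₊ ⌊m⌋₊ H ∧ p ∈ H}.ncard}.ncard ≤
      P.card := by
    have h1 : {p | p ∈ P ∧ ⌊b⌋₊ < {H | MirrorN P ⌊M⌋₊ ⌊m⌋₊ H ∧ p ∈ H}.ncard} =
        {p | p ∈ P ∧ b < ({H | MirrorR P M m H ∧ p ∈ H}.ncard : ℝ)} := by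
      ext p
      simp only [Set.mem_ofPred_eq]
      rw [hset p, Nat.floor_lt (by linarith)]
    rw [h1]
    exact hfew
  obtain ⟨p, hp, hb2⟩ := h P ⌊M⌋₊ ⌊m⌋₊ ⌊b⌋₊ hP hM1 hm1 hb1
    (by have := hyp_of_mirror P ⌊M⌋₊ ⌊m⌋₊ ⌊b⌋₊ hfew'; convert this)
  refine ⟨p, hp, ?_⟩
  rw [pin_ncard]
  refine le_trans ?_ hb2
  apply mul_le_mul_of_nonneg_left _ hc0.le
  apply mul_le_mul_of_nonneg_left _ (by positivity)
  apply lowRM_anti hd (by positivity) (by exact_mod_cast hM1) (by exact_mod_cast hm1)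
    (by exact_mod_cast hb1)
  · exact Nat.floor_le (by linarith)
  · exact Nat.floor_le (by linarith)
  · exact Nat.floor_le (by linarith)

/-- the bound at the critical thresholds -/
theorem lowRM_crit {d : ℕ} (hd : 2 ≤ d) {n A : ℝ} (hn : 1 ≤ n) (hA : 1 ≤ A) :
    (A ^ (d:ℝ))⁻¹ * n ^ (2 / (d:ℝ)) ≤
      lowRM d n (A * n ^ (((d:ℝ) - 2) / ((d:ℝ) - 1))) (A * n ^ (((d:ℝ) - 2) / ((d:ℝ) - 1)))
        (A * n ^ (((d:ℝ) - 2) / ((d:ℝ) * ((d:ℝ) - 1)))) := by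
  have hD : (2:ℝ) ≤ d := by exact_mod_cast hd
  have hn0 : 0 < n := by linarith
  have hA0 : 0 < A := by linarith
  have hd0 : (0:ℝ) < d := by linarith
  have hd1 : (0:ℝ) < (d:ℝ) - 1 := by linarith
  have hinv : ∀ x : ℝ, x ≤ d → (A ^ (d:ℝ))⁻¹ ≤ (A ^ x)⁻¹ := by
    intro x hx
    apply inv_anti₀ (by positivity)
    exact Real.rpow_le_rpow_of_exponent_le hA hx
  unfold lowRM
  refine le_min (le_min ?_ ?_) (le_min ?_ ?_)
  · have h1 : (A ^ (d:ℝ))⁻¹ ≤ 1 := inv_le_one_of_one_le₀ (Real.one_le_rpow hA hd0.le)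
    calc (A ^ (d:ℝ))⁻¹ * n ^ (2 / (d:ℝ)) ≤ 1 * n ^ (2 / (d:ℝ)) :=
          mul_le_mul_of_nonneg_right h1 (by positivity)
      _ = _ := one_mul _
  · have h1 : (A * n ^ (((d:ℝ) - 2) / ((d:ℝ) - 1))) ^ (((d:ℝ) - 1) / d) =
        A ^ (((d:ℝ) - 1) / d) * n ^ (((d:ℝ) - 2) / d) := by
      rw [Real.mul_rpow hA0.le (by positivity), ← Real.rpow_mul hn0.le]
      congr 2
      field_simp
    have h2 : n / (A ^ (((d:ℝ) - 1) / d) * n ^ (((d:ℝ) - 2) / d)) =
        (A ^ (((d:ℝ) - 1) / d))⁻¹ * n ^ (2 / (d:ℝ)) := by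
      have h3 : n = n ^ (2 / (d:ℝ)) * n ^ (((d:ℝ) - 2) / d) := by
        rw [← Real.rpow_add hn0]
        have : 2 / (d:ℝ) + ((d:ℝ) - 2) / d = 1 := by field_simp; ring
        rw [this, Real.rpow_one]
      have h4 : 0 < n ^ (((d:ℝ) - 2) / d) := by positivity
      rw [div_eq_iff (by positivity)]
      rw [show (A ^ (((d:ℝ) - 1) / d))⁻¹ * n ^ (2 / (d:ℝ)) *
        (A ^ (((d:ℝ) - 1) / d) * n ^ (((d:ℝ) - 2) / d)) =
        ((A ^ (((d:ℝ) - 1) / d))⁻¹ * A ^ (((d:ℝ) - 1) / d)) *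
          (n ^ (2 / (d:ℝ)) * n ^ (((d:ℝ) - 2) / d)) by ring,
        inv_mul_cancel₀ (by positivity), one_mul]
      exact h3
    rw [h1, h2]
    apply mul_le_mul_of_nonneg_right _ (by positivity)
    apply hinv
    rw [div_le_iff₀ hd0]
    nlinarith
  · have h1 : (A * n ^ (((d:ℝ) - 2) / ((d:ℝ) * ((d:ℝ) - 1)))) ^ ((d:ℝ) - 1) =
        A ^ ((d:ℝ) - 1) * n ^ (((d:ℝ) - 2) / d) := by
      rw [Real.mul_rpow hA0.le (by positivity), ← Real.rpow_mul hn0.le]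
      congr 2
      field_simp
    have h2 : n / (A ^ ((d:ℝ) - 1) * n ^ (((d:ℝ) - 2) / d)) =
        (A ^ ((d:ℝ) - 1))⁻¹ * n ^ (2 / (d:ℝ)) := by
      have h3 : n = n ^ (2 / (d:ℝ)) * n ^ (((d:ℝ) - 2) / d) := by
        rw [← Real.rpow_add hn0]
        have : 2 / (d:ℝ) + ((d:ℝ) - 2) / d = 1 := by field_simp; ring
        rw [this, Real.rpow_one]
      rw [div_eq_iff (by positivity)]
      rw [show (A ^ ((d:ℝ) - 1))⁻¹ * n ^ (2 / (d:ℝ)) *
        (A ^ ((d:ℝ) - 1) * n ^ (((d:ℝ) - 2) / d)) =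
        ((A ^ ((d:ℝ) - 1))⁻¹ * A ^ ((d:ℝ) - 1)) *
          (n ^ (2 / (d:ℝ)) * n ^ (((d:ℝ) - 2) / d)) by ring,
        inv_mul_cancel₀ (by positivity), one_mul]
      exact h3
    rw [h1, h2]
    apply mul_le_mul_of_nonneg_right _ (by positivity)
    apply hinv
    linarith
  · have h1 : (A * n ^ (((d:ℝ) - 2) / ((d:ℝ) - 1))) ^ ((d:ℝ) - 1) =
        A ^ ((d:ℝ) - 1) * n ^ ((d:ℝ) - 2) := by
      rw [Real.mul_rpow hA0.le (by positivity), ← Real.rpow_mul hn0.le,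
        div_mul_cancel₀ _ hd1.ne']
    have h2 : n ^ (3 * (d:ℝ) - 2) / (A ^ ((d:ℝ) - 1) * n ^ ((d:ℝ) - 2)) =
        (A ^ ((d:ℝ) - 1))⁻¹ * n ^ (2 * (d:ℝ)) := by
      have h3 : n ^ (3 * (d:ℝ) - 2) = n ^ (2 * (d:ℝ)) * n ^ ((d:ℝ) - 2) := by
        rw [← Real.rpow_add hn0]; congr 1; ring
      rw [div_eq_iff (by positivity), h3]
      rw [show (A ^ ((d:ℝ) - 1))⁻¹ * n ^ (2 * (d:ℝ)) *
        (A ^ ((d:ℝ) - 1) * n ^ ((d:ℝ) - 2)) =
        ((A ^ ((d:ℝ) - 1))⁻¹ * A ^ ((d:ℝ) - 1)) *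
          (n ^ (2 * (d:ℝ)) * n ^ ((d:ℝ) - 2)) by ring,
        inv_mul_cancel₀ (by positivity), one_mul]
    have h3 : ((A ^ ((d:ℝ) - 1))⁻¹ * n ^ (2 * (d:ℝ))) ^ (1 / (d:ℝ) ^ 2) =
        (A ^ (((d:ℝ) - 1) / (d:ℝ) ^ 2))⁻¹ * n ^ (2 / (d:ℝ)) := by
      rw [Real.mul_rpow (by positivity) (by positivity), Real.inv_rpow (by positivity),
        ← Real.rpow_mul hA0.le, ← Real.rpow_mul hn0.le, mul_one_div]
      congr 2
      field_simp
    rw [h1, h2, h3]
    apply mul_le_mul_of_nonneg_right _ (by positivity)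
    apply hinv
    rw [div_le_iff₀ (by positivity)]
    nlinarith [sq_nonneg ((d:ℝ))]

end Vale.Agent.P054M
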