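import Vale.Agent.P054.MathlibUsed
import Vale.Agent.P054.H25.Defs
attribute [-instance] ProperSMul.toContinuousSMul IsTopologicalTorsor.toContinuousSMul IdemSemiring.toCanonicallyOrderedAdd IdemSemiring.toMulLeftMono IdemSemiring.toMulRightMono AddQuantale.instAddLeftMono AddQuantale.instAddRightMono Quantale.instMulLeftMono Quantale.instMulRightMono FiniteDimensional.rclike_to_real IsScalarTower.complexToReal FiniteDimensional.complexToReal

set_option linter.all false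
set_option autoImplicit false

/-! Exponent identities for Theorem F. -/

namespace Vale.Agent.P054F

theorem den_pos {a k : ℕ} (hk : 1 ≤ k) (h : k < a) : (0:ℝ) < 2 * a - k - 1 := by
  have h1 : (k:ℝ) + 1 ≤ a := by exact_mod_cast h
  have h2 : (1:ℝ) ≤ k := by exact_mod_cast hk
  linarith

theorem al_mul {a k : ℕ} (hk : 1 ≤ k) (h : k < a) :
    al a k * (2 * a - k - 1) = (a:ℝ) * (a - k) := by
  unfold al
  exact div_mul_cancel₀ _ (den_pos hk h).ne'

theorem be_mul {a k : ℕ} (hk : 1 ≤ k) (h : k < a) :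
    be a k * (2 * a - k - 1) = (a:ℝ) - 1 := by
  unfold be
  exact div_mul_cancel₀ _ (den_pos hk h).ne'

theorem be_pos {a k : ℕ} (hk : 1 ≤ k) (h : k < a) : 0 < be a k := by
  unfold be
  apply div_pos _ (den_pos hk h)
  have h1 : (k:ℝ) + 1 ≤ a := by exact_mod_cast h
  have h2 : (1:ℝ) ≤ k := by exact_mod_cast hk
  linarith

theorem be_le_one {a k : ℕ} (hk : 1 ≤ k) (h : k < a) : be a k ≤ 1 := by
  unfold be
  rw [div_le_one (den_pos hk h)]
  have h1 : (k:ℝ) + 1 ≤ a := by exact_mod_cast h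
  linarith

theorem one_le_al {a k : ℕ} (hk : 1 ≤ k) (h : k < a) : 1 ≤ al a k := by
  unfold al
  rw [one_le_div (den_pos hk h)]
  have h1 : (k:ℝ) + 1 ≤ a := by exact_mod_cast h
  have h2 : (1:ℝ) ≤ k := by exact_mod_cast hk
  nlinarith

/-- `d·be − (d−1)be(a) ≥ 0` with `D = d + w`, `a + w = d` -/
theorem be_gap {d k a w : ℕ} (hk : 1 ≤ k) (ha : k < a) (hd : a + w = d) :
    ((d:ℝ) - 1) * be a k ≤ ((d:ℝ) + w) * be d k := by
  have hkd : k < d := by omega
  have hq := den_pos hk ha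
  have hq' := den_pos hk hkd
  unfold be
  rw [mul_div_assoc', mul_div_assoc', div_le_div_iff₀ hq hq']
  have hd' : (d:ℝ) = a + w := by rw [← hd]; push_cast; ring
  have h1 : (k:ℝ) + 1 ≤ a := by exact_mod_cast ha
  have h2 : (1:ℝ) ≤ k := by exact_mod_cast hk
  have hw : (0:ℝ) ≤ w := Nat.cast_nonneg w
  rw [hd']
  have key : ((a:ℝ) + w + w) * ((a:ℝ) + w - 1) * (2 * a - k - 1)
      - ((a:ℝ) + w - 1) * (a - 1) * (2 * (a + w) - k - 1)
      = ((a:ℝ) + w - 1) * ((2 * a - k - 1) + 2 * w * (a - k)) := by ring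
  have h3 : 0 ≤ ((a:ℝ) + w - 1) * ((2 * a - k - 1) + 2 * w * (a - k)) := by
    apply mul_nonneg (by linarith)
    have : 0 ≤ (w:ℝ) * (a - k) := mul_nonneg hw (by linarith)
    nlinarith
  linarith [key, h3]

/-- the exponent comparison for the `w`-term -/
theorem al_gap {d k a w : ℕ} (hk : 1 ≤ k) (ha : k < a) (hd : a + w = d) :
    (w:ℝ) * d + 1 + ((d:ℝ) - 1) * al a k ≤
      ((d:ℝ) + w) * al d k + (((d:ℝ) + w) * be d k - ((d:ℝ) - 1) * be a k) * (((k:ℝ) - 1) / 2) := by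
  have hkd : k < d := by omega
  have hq := den_pos hk ha
  have hq' := den_pos hk hkd
  have hd' : (d:ℝ) = a + w := by rw [← hd]; push_cast; ring
  have h1 : (k:ℝ) + 1 ≤ a := by exact_mod_cast ha
  have h2 : (1:ℝ) ≤ k := by exact_mod_cast hk
  have hw : (0:ℝ) ≤ w := Nat.cast_nonneg w
  have e1 := al_mul hk ha
  have e2 := be_mul hk ha
  have e3 := al_mul hk hkd
  have e4 := be_mul hk hkd
  have hprod : (0:ℝ) < (2 * a - k - 1) * (2 * d - k - 1) := mul_pos hq hq'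
  refine le_of_mul_le_mul_right ?_ hprod
  have L : ((w:ℝ) * d + 1 + ((d:ℝ) - 1) * al a k) * ((2 * a - k - 1) * (2 * d - k - 1)) =
      ((w:ℝ) * d + 1) * ((2 * a - k - 1) * (2 * d - k - 1)) +
        ((d:ℝ) - 1) * (a * (a - k)) * (2 * d - k - 1) := by
    linear_combination (((d:ℝ) - 1) * (2 * d - k - 1)) * e1
  have R : (((d:ℝ) + w) * al d k +
      (((d:ℝ) + w) * be d k - ((d:ℝ) - 1) * be a k) * (((k:ℝ) - 1) / 2)) *
        ((2 * a - k - 1) * (2 * d - k - 1)) =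
      ((d:ℝ) + w) * (d * (d - k)) * (2 * a - k - 1) +
        (((d:ℝ) + w) * (d - 1) * (2 * a - k - 1) -
          ((d:ℝ) - 1) * (a - 1) * (2 * d - k - 1)) * (((k:ℝ) - 1) / 2) := by
    linear_combination (((d:ℝ) + w) * (2 * a - k - 1)) * e3 +
      (((d:ℝ) + w) * (2 * a - k - 1) * (((k:ℝ) - 1) / 2)) * e4 -
      (((d:ℝ) - 1) * (2 * d - k - 1) * (((k:ℝ) - 1) / 2)) * e2
  rw [L, R, hd']
  have key : ((a:ℝ) + w + w) * ((a + w) * (a + w - k)) * (2 * a - k - 1) +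
        (((a:ℝ) + w + w) * (a + w - 1) * (2 * a - k - 1) -
          ((a:ℝ) + w - 1) * (a - 1) * (2 * (a + w) - k - 1)) * (((k:ℝ) - 1) / 2) -
      (((w:ℝ) * (a + w) + 1) * ((2 * a - k - 1) * (2 * (a + w) - k - 1)) +
        ((a:ℝ) + w - 1) * (a * (a - k)) * (2 * (a + w) - k - 1)) =
      ((a:ℝ) + w - 1) * (2 * (a - k - 1) ^ 2 + (k + 1) * (a - k - 1) +
        (k - 1) * ((a + w) - (k + 1) / 2)) := by ring
  have h3 : 0 ≤ ((a:ℝ) + w - 1) * (2 * (a - k - 1) ^ 2 + (k + 1) * (a - k - 1) +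
        (k - 1) * ((a + w) - (k + 1) / 2)) := by
    apply mul_nonneg (by linarith)
    have p1 : 0 ≤ ((k:ℝ) + 1) * (a - k - 1) := mul_nonneg (by linarith) (by linarith)
    have p2 : 0 ≤ ((k:ℝ) - 1) * ((a + w) - (k + 1) / 2) :=
      mul_nonneg (by linarith) (by linarith)
    have p3 : 0 ≤ 2 * ((a:ℝ) - k - 1) ^ 2 := by positivity
    linarith
  linarith [key, h3]

/-- `al + be (k-1)/2 ≤ d/2` -/
theorem al_be_le {d k : ℕ} (hk : 1 ≤ k) (hkd : k < d) :
    al d k + be d k * (((k:ℝ) - 1) / 2) ≤ (d:ℝ) / 2 := by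
  have hq' := den_pos hk hkd
  have e3 := al_mul hk hkd
  have e4 := be_mul hk hkd
  have h1 : (k:ℝ) + 1 ≤ d := by exact_mod_cast hkd
  have h2 : (1:ℝ) ≤ k := by exact_mod_cast hk
  refine le_of_mul_le_mul_right ?_ hq'
  have L : (al d k + be d k * (((k:ℝ) - 1) / 2)) * (2 * d - k - 1) =
      (d:ℝ) * (d - k) + (d - 1) * (((k:ℝ) - 1) / 2) := by
    linear_combination e3 + (((k:ℝ) - 1) / 2) * e4
  rw [L]
  nlinarith

/-- `d²/(2d−1) < (d+1)/2` -/
theorem pin_lt_half {d : ℕ} (hd : 2 ≤ d) : (d:ℝ) ^ 2 / (2 * d - 1) < ((d:ℝ) + 1) / 2 := by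
  have h : (2:ℝ) ≤ d := by exact_mod_cast hd
  rw [div_lt_div_iff₀ (by linarith) (by norm_num)]
  nlinarith

theorem pin_lt {d : ℕ} (hd : 2 ≤ d) : (d:ℝ) ^ 2 / (2 * d - 1) < d := by
  have h : (2:ℝ) ≤ d := by exact_mod_cast hd
  rw [div_lt_iff₀ (by linarith)]
  nlinarith

end Vale.Agent.P054F
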